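import Crest.Agent.R123.XDefs
import Crest.Agent.R123.XKick
import Crest.Agent.R123.Entropy

-- ▼ part R123/XClock
section

set_option autoImplicit false

namespace Crest.Agent.R123

open Real (smoothTransition)

lemma hour_add (a b : ℝ) : hour (a + b) = hour a * hour b := by
  unfold hour
  rw [← Complex.exp_add]
  congr 1
  push_cast
  ring

lemma norm_hour (a : ℝ) : ‖hour a‖ = 1 := by
  unfold hour
  exact Complex.norm_exp_ofReal_mul_I _

lemma hour_add_int (a : ℝ) (m : ℤ) : hour (a + 12 * m) = hour a := by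
  unfold hour
  rw [Complex.exp_eq_exp_iff_exists_int]
  refine ⟨m, ?_⟩
  push_cast
  ring

lemma hour_eq_cos_sin (t : ℝ) :
    hour t = ((Real.cos (Real.pi / 6 * t) : ℝ) : ℂ) + ((Real.sin (Real.pi / 6 * t) : ℝ) : ℂ) * Complex.I := by
  unfold hour
  rw [Complex.exp_mul_I, Complex.ofReal_cos, Complex.ofReal_sin]

lemma hour_re (t : ℝ) : (hour t).re = Real.cos (Real.pi / 6 * t) := by
  rw [hour_eq_cos_sin, Complex.add_re, Complex.ofReal_re, Complex.re_ofReal_mul, Complex.I_re]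
  ring

lemma hour_im (t : ℝ) : (hour t).im = Real.sin (Real.pi / 6 * t) := by
  rw [hour_eq_cos_sin, Complex.add_im, Complex.ofReal_im, Complex.im_ofReal_mul, Complex.I_im]
  ring

lemma conj_hour (t : ℝ) : (starRingEnd ℂ) (hour t) = hour (-t) := by
  apply Complex.ext
  · rw [Complex.conj_re, hour_re, hour_re, mul_neg, Real.cos_neg]
  · rw [Complex.conj_im, hour_im, hour_im, mul_neg, Real.sin_neg]

/-- every point of the circle is some hour -/
lemma exists_hour (z : S1) : ∃ t : ℝ, (z : ℂ) = hour t := by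
  have h : ‖(z : ℂ)‖ = 1 := by simp
  refine ⟨Complex.arg (z : ℂ) * 6 / Real.pi, ?_⟩
  unfold hour
  have hpi : Real.pi ≠ 0 := Real.pi_ne_zero
  have h1 : Real.pi / 6 * (Complex.arg (z : ℂ) * 6 / Real.pi) = Complex.arg (z : ℂ) := by
    field_simp
  rw [h1]
  have := Complex.norm_mul_exp_arg_mul_I (z : ℂ)
  rw [h] at this
  simpa using this.symm

lemma rho_hour (t : ℝ) : rho (hour t) = Real.cos (Real.pi / 6 * (t - 4)) := by
  unfold rho
  rw [conj_hour, ← hour_add, hour_re]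
  congr 1

lemma SZ_nonneg (z : ℂ) : 0 ≤ SZ z := smoothTransition.nonneg _
lemma SZ_le_one (z : ℂ) : SZ z ≤ 1 := smoothTransition.le_one _
lemma sz_nonneg (z : ℂ) : 0 ≤ sz z := smoothTransition.nonneg _
lemma sz_le_one (z : ℂ) : sz z ≤ 1 := smoothTransition.le_one _

lemma cos_clock (s : ℝ) (m : ℤ) :
    Real.cos (Real.pi / 6 * s) = Real.cos (Real.pi / 6 * (s - 12 * m)) := by
  have : Real.pi / 6 * (s - 12 * m) = Real.pi / 6 * s - m * (2 * Real.pi) := by ring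
  rw [this, Real.cos_sub_int_mul_two_pi]

lemma SZ_one {t : ℝ} (m : ℤ) (h1 : 12 * m + 1 ≤ t) (h2 : t ≤ 12 * m + 7) : SZ (hour t) = 1 := by
  unfold SZ
  apply smoothTransition.one_of_one_le
  rw [rho_hour, cos_clock _ m]
  have hpi := Real.pi_pos
  have : 0 ≤ Real.cos (Real.pi / 6 * (t - 4 - 12 * m)) := by
    apply Real.cos_nonneg_of_neg_pi_div_two_le_of_le
    · nlinarith
    · nlinarith
  linarith

lemma SZ_zero {t : ℝ} (m : ℤ) (h1 : 12 * m - 4 ≤ t) (h2 : t ≤ 12 * m) : SZ (hour t) = 0 := by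
  unfold SZ
  apply smoothTransition.zero_of_nonpos
  rw [rho_hour, cos_clock _ m]
  have hpi := Real.pi_pos
  have e : Real.cos (Real.pi / 6 * (t - 4 - 12 * m)) =
      - Real.cos (Real.pi / 6 * (t - 4 - 12 * m) + Real.pi) := by
    rw [Real.cos_add_pi]; ring
  rw [e]
  have h3 : Real.cos (Real.pi / 3) ≤ Real.cos (Real.pi / 6 * (t - 4 - 12 * m) + Real.pi) := by
    rw [← Real.cos_abs (Real.pi / 6 * (t - 4 - 12 * m) + Real.pi)]
    apply Real.cos_le_cos_of_nonneg_of_le_pi (abs_nonneg _)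
    · linarith
    · rw [abs_le]; constructor <;> nlinarith
  rw [Real.cos_pi_div_three] at h3
  linarith

lemma sz_one {t : ℝ} (m : ℤ) (h1 : 12 * m + 3 ≤ t) (h2 : t ≤ 12 * m + 5) : sz (hour t) = 1 := by
  unfold sz
  apply smoothTransition.one_of_one_le
  rw [rho_hour, cos_clock _ m]
  have hpi := Real.pi_pos
  have hpi4 := Real.pi_le_four
  have h3 := Real.one_sub_sq_div_two_le_cos (x := Real.pi / 6 * (t - 4 - 12 * m))
  have h4 : (Real.pi / 6 * (t - 4 - 12 * m)) ^ 2 ≤ (2 / 3) ^ 2 := by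
    rw [sq_le_sq, abs_mul, abs_of_pos (by positivity : (0:ℝ) < Real.pi / 6)]
    have : |t - 4 - 12 * (m : ℝ)| ≤ 1 := by rw [abs_le]; constructor <;> linarith
    rw [abs_of_pos (by norm_num : (0:ℝ) < 2 / 3)]
    calc Real.pi / 6 * |t - 4 - 12 * (m : ℝ)| ≤ Real.pi / 6 * 1 := by gcongr
      _ ≤ 2 / 3 := by linarith
  linarith

lemma sz_zero {t : ℝ} (m : ℤ) (h1 : 12 * m - 4 ≤ t) (h2 : t ≤ 12 * m + 2) : sz (hour t) = 0 := by
  unfold sz
  apply smoothTransition.zero_of_nonpos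
  rw [rho_hour, cos_clock _ m]
  have hpi := Real.pi_pos
  have e : Real.cos (Real.pi / 6 * (t - 4 - 12 * m)) =
      - Real.cos (Real.pi / 6 * (t - 4 - 12 * m) + Real.pi) := by
    rw [Real.cos_add_pi]; ring
  rw [e]
  have h3 : Real.cos (2 * Real.pi / 3) ≤ Real.cos (Real.pi / 6 * (t - 4 - 12 * m) + Real.pi) := by
    rw [← Real.cos_abs (Real.pi / 6 * (t - 4 - 12 * m) + Real.pi)]
    apply Real.cos_le_cos_of_nonneg_of_le_pi (abs_nonneg _)
    · linarith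
    · rw [abs_le]; constructor <;> nlinarith
  have h4 : Real.cos (2 * Real.pi / 3) = - (1 / 2) := by
    have : 2 * Real.pi / 3 = Real.pi - Real.pi / 3 := by ring
    rw [this, Real.cos_pi_sub, Real.cos_pi_div_three]
  rw [h4] at h3
  linarith

lemma gam_nonneg (z : ℂ) : 0 ≤ gam z := by
  unfold gam
  exact mul_nonneg (SZ_nonneg _) (by linarith [SZ_le_one (z * hour (-1))])

lemma gam_le_one (z : ℂ) : gam z ≤ 1 := by
  unfold gam
  exact mul_le_one₀ (SZ_le_one _) (by linarith [SZ_le_one (z * hour (-1))])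
    (by linarith [SZ_nonneg (z * hour (-1))])

lemma gam_hour (t : ℝ) : gam (hour t) = SZ (hour t) * (1 - SZ (hour (t - 1))) := by
  unfold gam
  rw [← hour_add, sub_eq_add_neg t 1]

lemma gam_first {t : ℝ} (m : ℤ) (h1 : 12 * m ≤ t) (h2 : t ≤ 12 * m + 1) :
    gam (hour t) = SZ (hour t) := by
  rw [gam_hour, SZ_zero (t := t - 1) m (by linarith) (by linarith)]
  ring

lemma gam_second {t : ℝ} (m : ℤ) (h1 : 12 * m + 1 ≤ t) (h2 : t ≤ 12 * m + 2) :
    gam (hour t) = 1 - SZ (hour (t - 1)) := by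
  rw [gam_hour, SZ_one (t := t) m (by linarith) (by linarith)]
  ring

lemma gam_zero {t : ℝ} (m : ℤ) (h1 : 12 * m + 2 ≤ t) (h2 : t ≤ 12 * m + 8) :
    gam (hour t) = 0 := by
  rw [gam_hour, SZ_one (t := t - 1) m (by linarith) (by linarith)]
  ring

lemma gam_reset {t : ℝ} (m : ℤ) (h1 : 12 * m - 4 ≤ t) (h2 : t ≤ 12 * m) :
    gam (hour t) = 0 := by
  rw [gam_hour, SZ_zero (t := t) m h1 h2]
  ring

lemma abs_re_mul_conj_hour (z : S1) : |((z : ℂ) * (starRingEnd ℂ) (hour 5)).re| ≤ 1 := by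
  have h : ‖(z : ℂ)‖ = 1 := by simp
  calc |((z : ℂ) * (starRingEnd ℂ) (hour 5)).re| ≤ ‖(z : ℂ) * (starRingEnd ℂ) (hour 5)‖ :=
        Complex.abs_re_le_norm _
    _ = 1 := by rw [norm_mul, RCLike.norm_conj, norm_hour, h, one_mul]

lemma psi_nonneg (z : S1) : 0 ≤ psi (z : ℂ) := by
  unfold psi
  have := (abs_le.1 (abs_re_mul_conj_hour z)).1
  linarith

lemma psi_le_one (z : S1) : psi (z : ℂ) ≤ 1 := by
  unfold psi
  have := (abs_le.1 (abs_re_mul_conj_hour z)).2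
  linarith

lemma psi_eq_one_iff (z : S1) : psi (z : ℂ) = 1 ↔ (z : ℂ) = hour 5 := by
  have h : ‖(z : ℂ)‖ = 1 := by simp
  have hn : ‖(z : ℂ) * (starRingEnd ℂ) (hour 5)‖ = 1 := by
    rw [norm_mul, RCLike.norm_conj, norm_hour, h, one_mul]
  have hh : (starRingEnd ℂ) (hour 5) * hour 5 = 1 := by
    rw [conj_hour, ← hour_add]
    simp [hour]
  constructor
  · intro hp
    unfold psi at hp
    have hre : ((z : ℂ) * (starRingEnd ℂ) (hour 5)).re = 1 := by linarith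
    have him : ((z : ℂ) * (starRingEnd ℂ) (hour 5)).im = 0 := by
      have h2 := Complex.sq_norm ((z : ℂ) * (starRingEnd ℂ) (hour 5))
      rw [hn, Complex.normSq_apply, hre] at h2
      nlinarith
    have h1 : (z : ℂ) * (starRingEnd ℂ) (hour 5) = 1 := Complex.ext (by simpa using hre) (by simpa using him)
    calc (z : ℂ) = (z : ℂ) * ((starRingEnd ℂ) (hour 5) * hour 5) := by rw [hh, mul_one]
      _ = ((z : ℂ) * (starRingEnd ℂ) (hour 5)) * hour 5 := by ring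
      _ = hour 5 := by rw [h1, one_mul]
  · intro hz
    unfold psi
    rw [hz, mul_comm, hh]
    norm_num

lemma psi_hour (t : ℝ) : psi (hour t) = (1 + Real.cos (Real.pi / 6 * (t - 5))) / 2 := by
  unfold psi
  rw [conj_hour, ← hour_add, hour_re]
  congr 1

/-- quadratic lower bound -/
lemma psi_ge (t : ℝ) (m : ℤ) : 1 - (t - (12 * m + 5)) ^ 2 ≤ psi (hour t) := by
  rw [psi_hour, cos_clock _ m]
  have h3 := Real.one_sub_sq_div_two_le_cos (x := Real.pi / 6 * (t - 5 - 12 * m))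
  have hpi := Real.pi_pos
  have hpi4 := Real.pi_le_four
  have h4 : (Real.pi / 6 * (t - 5 - 12 * m)) ^ 2 ≤ (t - 5 - 12 * m) ^ 2 := by
    rw [mul_pow]
    have : (Real.pi / 6) ^ 2 ≤ 1 := by nlinarith
    nlinarith [sq_nonneg (t - 5 - 12 * (m : ℝ))]
  have e : (t - (12 * m + 5)) ^ 2 = (t - 5 - 12 * (m:ℝ)) ^ 2 := by ring
  rw [e]
  nlinarith [sq_nonneg (t - 5 - 12 * (m : ℝ))]

end Crest.Agent.R123
end

-- ▼ part R123/XLocal
section

set_option autoImplicit false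

namespace Crest.Agent.R123

open Real (smoothTransition)

@[simp] lemma ze_north : ze north = 0 := rfl
@[simp] lemma he_north : he north = 1 := rfl
@[simp] lemma ze_south : ze south = 0 := rfl
@[simp] lemma he_south : he south = -1 := rfl

lemma ze_jj (v : ℂ) : ze (jj v) = 2 * v / ((1 + ‖v‖ ^ 2 : ℝ) : ℂ) := rfl
lemma he_jj (v : ℂ) : he (jj v) = (‖v‖ ^ 2 - 1) / (1 + ‖v‖ ^ 2) := rfl

lemma jj_zero : jj 0 = south := by
  apply S2_ext
  · rw [ze_jj, ze_south]; simp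
  · rw [he_jj, he_south]; simp

lemma he_le_one (x : S2) : he x ≤ 1 := by
  have h := ze_he x
  nlinarith [sq_nonneg ‖ze x‖]

lemma neg_one_le_he (x : S2) : -1 ≤ he x := by
  have h := ze_he x
  nlinarith [sq_nonneg ‖ze x‖]

lemma eq_north_of_he {x : S2} (h : he x = 1) : x = north := by
  apply S2_ext
  · have h2 := ze_he x
    rw [h] at h2
    have h3 : ‖ze x‖ ^ 2 = 0 := by linarith
    rw [ze_north]
    simpa using h3
  · rw [h]; rfl

lemma eq_south_of_he {x : S2} (h : he x = -1) : x = south := by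
  apply S2_ext
  · have h2 := ze_he x
    rw [h] at h2
    have h3 : ‖ze x‖ ^ 2 = 0 := by linarith
    rw [ze_south]
    simpa using h3
  · rw [h]; rfl

/-- every point is `north` or some `jj v` -/
lemma eq_north_or_jj (x : S2) : x = north ∨ ∃ v : ℂ, x = jj v := by
  by_cases hx : he x = 1
  · exact Or.inl (eq_north_of_he hx)
  · right
    have h1 : he x < 1 := lt_of_le_of_ne (he_le_one x) hx
    have h2 := ze_he x
    have h3 : 0 < 1 - he x := by linarith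
    have hv : ‖ze x / ((1 - he x : ℝ) : ℂ)‖ ^ 2 = (1 + he x) / (1 - he x) := by
      rw [norm_div, Complex.norm_real, Real.norm_of_nonneg h3.le, div_pow]
      field_simp
      nlinarith
    refine ⟨ze x / ((1 - he x : ℝ) : ℂ), ?_⟩
    apply S2_ext
    · rw [ze_jj, hv]
      have h4 : (1 + (1 + he x) / (1 - he x) : ℝ) = 2 / (1 - he x) := by
        field_simp
        ring
      rw [h4]
      have h5 : ((1 - he x : ℝ) : ℂ) ≠ 0 := by exact_mod_cast h3.ne'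
      push_cast at h5 ⊢
      field_simp
    · rw [he_jj, hv]
      field_simp
      ring

lemma he_jj_lt (v : ℂ) : he (jj v) < 1 := by
  rw [he_jj, div_lt_one (by positivity)]
  linarith

lemma jj_ne_north (v : ℂ) : jj v ≠ north := by
  intro h
  have h1 := he_jj_lt v
  rw [h, he_north] at h1
  exact lt_irrefl _ h1

lemma one_sub_he_jj (v : ℂ) : 1 - he (jj v) = 2 / (1 + ‖v‖ ^ 2) := by
  rw [he_jj]
  field_simp
  ring

lemma ze_div_jj (v : ℂ) : ze (jj v) / ((1 - he (jj v) : ℝ) : ℂ) = v := by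
  rw [one_sub_he_jj, ze_jj]
  have h : ((1 + ‖v‖ ^ 2 : ℝ) : ℂ) ≠ 0 := by
    have : (1 + ‖v‖ ^ 2 : ℝ) ≠ 0 := by positivity
    exact_mod_cast this
  push_cast at h ⊢
  field_simp

lemma jj_injective : Function.Injective jj := by
  intro v w h
  rw [← ze_div_jj v, ← ze_div_jj w, h]

lemma sqS_jj (v : ℂ) : sqS (jj v) = jj (v ^ 2) := by
  have h : ((1 + ‖v‖ ^ 2 : ℝ) : ℂ) ≠ 0 := by
    have : (1 + ‖v‖ ^ 2 : ℝ) ≠ 0 := by positivity
    exact_mod_cast this
  have hp : (0:ℝ) < 1 + ‖v‖ ^ 2 := by positivity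
  have hp4 : (0:ℝ) < 1 + (‖v‖ ^ 2) ^ 2 := by positivity
  have h4 : ((1 + (‖v‖ ^ 2) ^ 2 : ℝ) : ℂ) ≠ 0 := by exact_mod_cast hp4.ne'
  have key : (1 + ((‖v‖ ^ 2 - 1) / (1 + ‖v‖ ^ 2)) ^ 2 : ℝ) =
      2 * (1 + (‖v‖ ^ 2) ^ 2) / (1 + ‖v‖ ^ 2) ^ 2 := by
    field_simp
    ring
  apply S2_ext
  · rw [sqS, ze_mkS2, he_jj, ze_jj, ze_jj, key, norm_pow]
    push_cast at h h4 ⊢
    field_simp
  · rw [sqS, he_mkS2, he_jj, he_jj, key, norm_pow]
    field_simp
    ring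

@[simp] lemma sqS_north : sqS north = north := by
  apply S2_ext
  · rw [sqS, ze_mkS2]; simp
  · rw [sqS, he_mkS2]; norm_num

lemma GS_jj (v : ℂ) : GS (jj v) = G v := by
  rw [GS, ze_div_jj]

@[simp] lemma GS_north : GS north = 0 := by
  rw [GS, ze_north, zero_div]
  exact G_zero_of_le_one (by simp)

lemma toS2_zero_one : toS2 0 1 = north := by
  rw [toS2, dif_pos (by simp)]
  rfl

lemma toS2_of {a : ℂ} {b : ℝ} (h : ‖a‖ ^ 2 + b ^ 2 = 1) : toS2 a b = mkS2 a b h := by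
  rw [toS2, dif_pos h]

lemma UU_north {k₁ k₂ : ℝ} (e : ℂ) (h1 : 0 < k₁) : UU k₁ k₂ e north = north := by
  have h : (k₁ ^ 2 : ℝ) ≠ 0 := by positivity
  have hX : UX k₁ k₂ e (ze north) (he north) = 0 := by
    rw [UX, ze_north, he_north]; simp
  have hY : UY k₁ k₂ e (ze north) (he north) = k₁ ^ 2 := by
    rw [UY, ze_north, he_north]; simp
  have hZ : UZ k₂ (he north) = 0 := by
    rw [UZ, he_north]; simp
  rw [UU, hX, hY, hZ]
  simp only [mul_zero, zero_div, add_zero, sub_zero]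
  rw [div_self h]
  exact toS2_zero_one

lemma UU_jj {k₁ k₂ : ℝ} (e v : ℂ) (h1 : 0 ≤ k₁) (h2 : 0 < k₂) :
    UU k₁ k₂ e (jj v) = jj ((k₁ / k₂ : ℝ) * v ^ 2 + e) := by
  set w : ℂ := (k₁ / k₂ : ℝ) * v ^ 2 + e with hw
  have hp : (0:ℝ) < 1 + ‖v‖ ^ 2 := by positivity
  have hC : ((1 + ‖v‖ ^ 2 : ℝ) : ℂ) ≠ 0 := by exact_mod_cast hp.ne'
  have hk : (k₂ : ℂ) ≠ 0 := by exact_mod_cast h2.ne'
  have hb : (1 - he (jj v)) / 2 = 1 / (1 + ‖v‖ ^ 2) := by
    rw [one_sub_he_jj]; field_simp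
  have hb' : (1 + he (jj v)) / 2 = ‖v‖ ^ 2 / (1 + ‖v‖ ^ 2) := by
    rw [he_jj]; field_simp; ring
  have ha : ze (jj v) / 2 = v / ((1 + ‖v‖ ^ 2 : ℝ) : ℂ) := by
    rw [ze_jj]; field_simp
  have hX : UX k₁ k₂ e (ze (jj v)) (he (jj v)) =
      ((k₂ ^ 2 / (1 + ‖v‖ ^ 2) ^ 2 : ℝ) : ℂ) * w := by
    rw [UX, ha, hb, hw]
    push_cast at hC ⊢
    field_simp
  have hZ : UZ k₂ (he (jj v)) = k₂ ^ 2 / (1 + ‖v‖ ^ 2) ^ 2 := by
    rw [UZ, hb]; field_simp
  have hnw : ‖w‖ ^ 2 = (k₁ / k₂) ^ 2 * (‖v‖ ^ 2) ^ 2 +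
      2 * (k₁ / k₂) * (v ^ 2 * (starRingEnd ℂ) e).re + ‖e‖ ^ 2 := by
    rw [hw, ← Complex.normSq_eq_norm_sq, Complex.normSq_add, Complex.normSq_mul,
      Complex.normSq_ofReal, Complex.normSq_eq_norm_sq, Complex.normSq_eq_norm_sq, norm_pow,
      mul_assoc ((k₁ / k₂ : ℝ) : ℂ), Complex.re_ofReal_mul]
    ring
  have hre : ((v / ((1 + ‖v‖ ^ 2 : ℝ) : ℂ)) ^ 2 * (starRingEnd ℂ) e).re =
      (v ^ 2 * (starRingEnd ℂ) e).re / (1 + ‖v‖ ^ 2) ^ 2 := by
    have : (v / ((1 + ‖v‖ ^ 2 : ℝ) : ℂ)) ^ 2 * (starRingEnd ℂ) e =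
        ((1 / (1 + ‖v‖ ^ 2) ^ 2 : ℝ) : ℂ) * (v ^ 2 * (starRingEnd ℂ) e) := by
      push_cast at hC ⊢
      field_simp
    rw [this, Complex.re_ofReal_mul]
    ring
  have hY : UY k₁ k₂ e (ze (jj v)) (he (jj v)) =
      k₂ ^ 2 / (1 + ‖v‖ ^ 2) ^ 2 * ‖w‖ ^ 2 := by
    rw [UY, ha, hb, hb', hre, hnw]
    field_simp
    try ring
  set c : ℝ := k₂ ^ 2 / (1 + ‖v‖ ^ 2) ^ 2 with hc
  have hc0 : 0 < c := by positivity
  have hcC : (c : ℂ) ≠ 0 := by exact_mod_cast hc0.ne'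
  have hwp : (0:ℝ) < 1 + ‖w‖ ^ 2 := by positivity
  have hwC : ((1 + ‖w‖ ^ 2 : ℝ) : ℂ) ≠ 0 := by exact_mod_cast hwp.ne'
  rw [UU, hX, hY, hZ]
  have e1 : 2 * ((c : ℂ) * w) / ((c * ‖w‖ ^ 2 + c : ℝ) : ℂ) = 2 * w / ((1 + ‖w‖ ^ 2 : ℝ) : ℂ) := by
    have : ((c * ‖w‖ ^ 2 + c : ℝ) : ℂ) = (c : ℂ) * ((1 + ‖w‖ ^ 2 : ℝ) : ℂ) := by
      push_cast; ring
    rw [this]
    field_simp
  have e2 : (c * ‖w‖ ^ 2 - c) / (c * ‖w‖ ^ 2 + c) = (‖w‖ ^ 2 - 1) / (1 + ‖w‖ ^ 2) := by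
    have : c * ‖w‖ ^ 2 + c = c * (1 + ‖w‖ ^ 2) := by ring
    rw [this]
    field_simp
  rw [e1, e2]
  rw [toS2_of]
  rfl

lemma UU_jj_top {k₁ : ℝ} (e : ℂ) {v : ℂ} (h1 : 0 < k₁) (hv : v ≠ 0) :
    UU k₁ 0 e (jj v) = north := by
  have hv' : 0 < ‖v‖ := norm_pos_iff.2 hv
  have hb' : (1 + he (jj v)) / 2 = ‖v‖ ^ 2 / (1 + ‖v‖ ^ 2) := by
    rw [he_jj]; field_simp; ring
  have hX : UX k₁ 0 e (ze (jj v)) (he (jj v)) = 0 := by
    rw [UX]; simp
  have hY : UY k₁ 0 e (ze (jj v)) (he (jj v)) = k₁ ^ 2 * (‖v‖ ^ 2 / (1 + ‖v‖ ^ 2)) ^ 2 := by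
    rw [UY, hb']; simp
  have hZ : UZ 0 (he (jj v)) = 0 := by
    rw [UZ]; simp
  have h : (k₁ ^ 2 * (‖v‖ ^ 2 / (1 + ‖v‖ ^ 2)) ^ 2 : ℝ) ≠ 0 := by positivity
  rw [UU, hX, hY, hZ]
  simp only [mul_zero, zero_div, add_zero, sub_zero]
  rw [div_self h]
  exact toS2_zero_one

/-- The cut-off of the height. -/
lemma KK_nonneg (h : ℝ) : 0 ≤ KK h := smoothTransition.nonneg _
lemma KK_le_one (h : ℝ) : KK h ≤ 1 := smoothTransition.le_one _

lemma KK_jj_of_le {v : ℂ} (h : ‖v‖ ≤ 4) : KK (he (jj v)) = 0 := by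
  rw [KK]
  apply Real.smoothTransition.zero_of_nonpos
  have h1 : he (jj v) ≤ 15 / 17 := by
    rw [he_jj, div_le_iff₀ (by positivity)]
    have := norm_nonneg v
    nlinarith
  linarith

lemma KK_jj_of_ge {v : ℂ} (h : 16 ≤ ‖v‖) : KK (he (jj v)) = 1 := by
  rw [KK]
  apply Real.smoothTransition.one_of_one_le
  have h1 : 255 / 257 ≤ he (jj v) := by
    rw [he_jj, le_div_iff₀ (by positivity)]
    nlinarith
  linarith

lemma KK_north : KK (he north) = 1 := by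
  rw [KK, he_north]
  apply Real.smoothTransition.one_of_one_le
  norm_num

/-! ### the cut-off identity -/

lemma cut_of_le {z : ℂ} (h : ‖z‖ ≤ 1 / 8) : cut z = z := by
  have h0 := norm_nonneg z
  rw [cut, Real.smoothTransition.zero_of_nonpos (by nlinarith)]
  simp

@[simp] lemma cut_zero : cut 0 = 0 := by
  simp [cut]

lemma norm_cut_le (z : ℂ) : ‖cut z‖ ≤ 1 / 4 := by
  have h0 := norm_nonneg z
  by_cases h : ‖z‖ ≤ 1 / 4
  · rw [cut, norm_mul, Complex.norm_real]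
    have h1 := Real.smoothTransition.nonneg ((64 * ‖z‖ ^ 2 - 1) / 3)
    have h2 := Real.smoothTransition.le_one ((64 * ‖z‖ ^ 2 - 1) / 3)
    rw [Real.norm_of_nonneg (by linarith)]
    nlinarith
  · rw [not_le] at h
    rw [cut, Real.smoothTransition.one_of_one_le (by nlinarith)]
    simp

/-! ### the section -/

lemma sec_cond {ξ : ℂ} (h : ‖ξ‖ ≤ 1) : ‖ξ‖ ^ 2 + (-Real.sqrt (1 - ‖ξ‖ ^ 2)) ^ 2 = 1 := by
  have h0 := norm_nonneg ξ
  rw [neg_sq, Real.sq_sqrt (by nlinarith)]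
  ring

lemma ze_sec {ξ : ℂ} (h : ‖ξ‖ ≤ 1) : ze (sec ξ) = ξ := by
  rw [sec, toS2_of (sec_cond h), ze_mkS2]

lemma he_sec {ξ : ℂ} (h : ‖ξ‖ ≤ 1) : he (sec ξ) = -Real.sqrt (1 - ‖ξ‖ ^ 2) := by
  rw [sec, toS2_of (sec_cond h), he_mkS2]

@[simp] lemma sec_zero : sec 0 = south := by
  apply S2_ext
  · rw [ze_sec (by simp)]; rfl
  · rw [he_sec (by simp)]; simp

lemma norm_GS_le (x : S2) : ‖GS x‖ ≤ 1 / 8 := norm_G_le _

lemma norm_xi_aux {a b : ℝ} {z w : ℂ} (ha : 0 ≤ a) (ha1 : a ≤ 1) (hb : 0 ≤ b) (hb1 : b ≤ 1)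
    (hz : ‖z‖ ≤ 1 / 4) (hw : ‖w‖ ≤ 1 / 8) : ‖(a : ℂ) * z + (b : ℂ) * w‖ ≤ 3 / 8 := by
  refine (norm_add_le _ _).trans ?_
  rw [norm_mul, norm_mul, Complex.norm_real, Complex.norm_real, Real.norm_of_nonneg ha,
    Real.norm_of_nonneg hb]
  have h1 : a * ‖z‖ ≤ 1 * (1 / 4) := mul_le_mul ha1 hz (norm_nonneg _) zero_le_one
  have h2 : b * ‖w‖ ≤ 1 * (1 / 8) := mul_le_mul hb1 hw (norm_nonneg _) zero_le_one
  linarith

lemma norm_xi1_le (p : Mfd) : ‖xi1 p‖ ≤ 3 / 8 :=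
  norm_xi_aux (SZ_nonneg _) (SZ_le_one _) (gam_nonneg _) (gam_le_one _) (norm_cut_le _)
    (norm_GS_le _)

lemma norm_xi2_le (p : Mfd) : ‖xi2 p‖ ≤ 3 / 8 := by
  refine norm_xi_aux (SZ_nonneg _) (SZ_le_one _) (gam_nonneg _) (gam_le_one _) (norm_cut_le _) ?_
  rw [norm_div]
  have := norm_GS_le (sqS (sqS p.1))
  simp only [Complex.norm_ofNat]
  linarith

/-! ### the speed -/

lemma tau_aux (p : Mfd) : 0 ≤ psi (p.2.2.2 : ℂ) * smoothTransition (-he p.1) *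
    ((1 - he p.2.1) * (1 - he p.2.2.1) / 4) ∧
    psi (p.2.2.2 : ℂ) * smoothTransition (-he p.1) ≤ 1 ∧
    0 ≤ (1 - he p.2.1) * (1 - he p.2.2.1) / 4 ∧ (1 - he p.2.1) * (1 - he p.2.2.1) / 4 ≤ 1 ∧
    0 ≤ psi (p.2.2.2 : ℂ) * smoothTransition (-he p.1) := by
  have h1 := psi_nonneg p.2.2.2
  have h2 := psi_le_one p.2.2.2
  have h3 := Real.smoothTransition.nonneg (-he p.1)
  have h4 := Real.smoothTransition.le_one (-he p.1)
  have h5 := he_le_one p.2.1
  have h6 := neg_one_le_he p.2.1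
  have h7 := he_le_one p.2.2.1
  have h8 := neg_one_le_he p.2.2.1
  have h9 : 0 ≤ (1 - he p.2.1) * (1 - he p.2.2.1) := mul_nonneg (by linarith) (by linarith)
  have h10 : (1 - he p.2.1) * (1 - he p.2.2.1) ≤ 2 * 2 :=
    mul_le_mul (by linarith) (by linarith) (by linarith) (by norm_num)
  have h11 : 0 ≤ psi (p.2.2.2 : ℂ) * smoothTransition (-he p.1) := mul_nonneg h1 h3
  have h12 : psi (p.2.2.2 : ℂ) * smoothTransition (-he p.1) ≤ 1 := mul_le_one₀ h2 h3 h4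
  exact ⟨mul_nonneg h11 (by linarith), h12, by linarith, by linarith, h11⟩

lemma tau_nonneg (p : Mfd) : 0 ≤ tau p := by
  obtain ⟨_, h2, h3, h4, h5⟩ := tau_aux p
  rw [tau]
  have := mul_le_one₀ h2 h3 h4
  linarith

lemma tau_le_one (p : Mfd) : tau p ≤ 1 := by
  obtain ⟨h1, _, _, _, _⟩ := tau_aux p
  rw [tau]
  linarith

lemma tau_eq_zero_iff (p : Mfd) : tau p = 0 ↔ p = PP := by
  constructor
  · intro h
    obtain ⟨h1, h2, h3, h4, h5⟩ := tau_aux p
    rw [tau] at h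
    have hprod : psi (p.2.2.2 : ℂ) * smoothTransition (-he p.1) *
      ((1 - he p.2.1) * (1 - he p.2.2.1) / 4) = 1 := by linarith
    have hA : psi (p.2.2.2 : ℂ) * smoothTransition (-he p.1) = 1 := by
      refine le_antisymm h2 ?_
      calc (1:ℝ) = _ := hprod.symm
        _ ≤ psi (p.2.2.2 : ℂ) * smoothTransition (-he p.1) * 1 :=
          mul_le_mul_of_nonneg_left h4 h5
        _ = _ := mul_one _
    have hB : (1 - he p.2.1) * (1 - he p.2.2.1) / 4 = 1 := by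
      rw [hA, one_mul] at hprod; exact hprod
    have hp1 : psi (p.2.2.2 : ℂ) = 1 := by
      refine le_antisymm (psi_le_one _) ?_
      calc (1:ℝ) = _ := hA.symm
        _ ≤ psi (p.2.2.2 : ℂ) * 1 :=
          mul_le_mul_of_nonneg_left (Real.smoothTransition.le_one _) (psi_nonneg _)
        _ = _ := mul_one _
    have hs1 : smoothTransition (-he p.1) = 1 := by
      rw [hp1, one_mul] at hA; exact hA
    rw [Real.smoothTransition.eq_one_iff_one_le] at hs1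
    have e1 : p.1 = south := by
      apply eq_south_of_he
      have := neg_one_le_he p.1
      linarith
    have h6 := neg_one_le_he p.2.1
    have h8 := neg_one_le_he p.2.2.1
    have h5' := he_le_one p.2.1
    have h7' := he_le_one p.2.2.1
    have e2 : p.2.1 = south := by
      apply eq_south_of_he
      nlinarith
    have e3 : p.2.2.1 = south := by
      apply eq_south_of_he
      nlinarith
    have e4 : (p.2.2.2 : ℂ) = hour 5 := (psi_eq_one_iff _).1 hp1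
    exact Prod.ext e1 (Prod.ext e2 (Prod.ext e3 (Subtype.ext e4)))
  · rintro rfl
    rw [tau]
    have hp1 : psi ((PP.2.2.2 : S1) : ℂ) = 1 := (psi_eq_one_iff _).2 rfl
    have e1 : PP.1 = south := rfl
    have e2 : PP.2.1 = south := rfl
    have e3 : PP.2.2.1 = south := rfl
    rw [hp1, e1, e2, e3, he_south]
    norm_num

lemma tau_of_north {p : Mfd} (h : p.1 = north) : tau p = 1 := by
  rw [tau, h, he_north, Real.smoothTransition.zero_of_nonpos (by norm_num)]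
  ring

lemma tau_of_one_le {p : Mfd} {v : ℂ} (hp : p.1 = jj v) (h : 1 ≤ ‖v‖) : tau p = 1 := by
  have h0 : 0 ≤ he (jj v) := by
    rw [he_jj]
    apply div_nonneg
    · nlinarith
    · positivity
  rw [tau, hp, Real.smoothTransition.zero_of_nonpos (by linarith)]
  ring

lemma sqrt_aux {a : ℝ} (h0 : 0 ≤ a) (h1 : a ≤ 1) : 1 - a ≤ Real.sqrt (1 - a) := by
  apply Real.le_sqrt_of_sq_le
  nlinarith

/-- near the waiting point the clock is slow -/
lemma tau_wait {t : ℝ} (m : ℤ) (w₁ w₂ : ℂ) (h1 : ‖w₁‖ ≤ 1) (h2 : ‖w₂‖ ≤ 1) (z : S1)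
    (hz : (z : ℂ) = hour t) :
    tau (south, sec w₁, sec w₂, z) ≤ (t - (12 * m + 5)) ^ 2 + (‖w₁‖ ^ 2 + ‖w₂‖ ^ 2) / 2 := by
  have hp := psi_ge t m
  rw [← hz] at hp
  have hp1 := psi_le_one z
  have hp0 := psi_nonneg z
  have a0 : 0 ≤ ‖w₁‖ ^ 2 := by positivity
  have b0 : 0 ≤ ‖w₂‖ ^ 2 := by positivity
  have a1 : ‖w₁‖ ^ 2 ≤ 1 := by have := norm_nonneg w₁; nlinarith
  have b1 : ‖w₂‖ ^ 2 ≤ 1 := by have := norm_nonneg w₂; nlinarith
  have ha := sqrt_aux a0 a1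
  have hb := sqrt_aux b0 b1
  have ha2 : Real.sqrt (1 - ‖w₁‖ ^ 2) ≤ 1 := by
    rw [Real.sqrt_le_one]; linarith
  have hb2 : Real.sqrt (1 - ‖w₂‖ ^ 2) ≤ 1 := by
    rw [Real.sqrt_le_one]; linarith
  rw [tau]
  simp only [he_south, neg_neg, he_sec h1, he_sec h2, Real.smoothTransition.one, mul_one,
    sub_neg_eq_add]
  generalize Real.sqrt (1 - ‖w₁‖ ^ 2) = s at *
  generalize Real.sqrt (1 - ‖w₂‖ ^ 2) = r at *
  generalize ‖w₁‖ ^ 2 = a at *
  generalize ‖w₂‖ ^ 2 = b at *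
  generalize psi (z : ℂ) = q at *
  have hP : 1 - (a + b) / 2 ≤ (1 + s) * (1 + r) / 4 := by
    have : (2 - a) * (2 - b) ≤ (1 + s) * (1 + r) :=
      mul_le_mul (by linarith) (by linarith) (by linarith) (by linarith)
    nlinarith
  have hP1 : (1 + s) * (1 + r) / 4 ≤ 1 := by
    have : (1 + s) * (1 + r) ≤ 2 * 2 := mul_le_mul (by linarith) (by linarith) (by linarith)
      (by norm_num)
    linarith
  nlinarith

/-! ### the rotation circle -/

lemma k1_north (z : ℂ) : k1 z north = 1 := by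
  rw [k1, KK_north]; ring

lemma xi1_Circ {p : Mfd} (hp : p ∈ Circ) : xi1 p = 0 := by
  obtain ⟨h1, h2, h3⟩ := hp
  rw [xi1, h1, h3]; simp

lemma xi2_Circ {p : Mfd} (hp : p ∈ Circ) : xi2 p = 0 := by
  obtain ⟨h1, h2, h3⟩ := hp
  rw [xi2, h1, h2]; simp

lemma F_Circ {p : Mfd} (hp : p ∈ Circ) : F p = (north, south, south, nextZ 1 p.2.2.2) := by
  have hx1 := xi1_Circ hp
  have hx2 := xi2_Circ hp
  obtain ⟨h1, h2, h3⟩ := hp
  rw [F, hx1, hx2, h1, h2, h3, tau_of_north h1, k1_north, sec_zero,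
    UU_north _ zero_lt_one]

lemma Circ_mapsTo : Set.MapsTo F Circ Circ := by
  intro p hp
  rw [F_Circ hp]
  exact ⟨rfl, rfl, rfl⟩


end Crest.Agent.R123
end

-- ▼ part R123/XFinalB
section

set_option autoImplicit false

open Filter Topology

namespace Crest.Agent.R123.FB

open Crest.Agent.R123

lemma Circ_F {p : Mfd} (hp : p ∈ Circ) : (F p).2.2.2 = nextZ 1 p.2.2.2 := by
  show nextZ (tau p) p.2.2.2 = nextZ 1 p.2.2.2
  rw [tau_of_north hp.1]

lemma Circ_ext {p q : Mfd} (hp : p ∈ Circ) (hq : q ∈ Circ)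
    (h : (p.2.2.2 : ℂ) = (q.2.2.2 : ℂ)) : p = q := by
  obtain ⟨h1, h2, h3⟩ := hp
  obtain ⟨k1, k2, k3⟩ := hq
  refine Prod.ext (h1.trans k1.symm) (Prod.ext (h2.trans k2.symm) (Prod.ext (h3.trans k3.symm) ?_))
  exact Subtype.ext h

lemma iterate_mem_Circ {p : Mfd} (hp : p ∈ Circ) (n : ℕ) : F^[n] p ∈ Circ :=
  Circ_mapsTo.iterate n hp

lemma iterate_clock {p : Mfd} (hp : p ∈ Circ) (n : ℕ) :
    ((F^[n] p).2.2.2 : ℂ) = (p.2.2.2 : ℂ) * hour n := by
  induction n with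
  | zero => simp [hour]
  | succ n ih =>
    rw [Function.iterate_succ_apply', Circ_F (iterate_mem_Circ hp n)]
    show ((F^[n] p).2.2.2 : ℂ) * hour 1 = _
    rw [ih, mul_assoc, ← hour_add]
    push_cast
    rfl

lemma hour_twelve : hour 12 = 1 := by
  have h := hour_add_int 0 1
  rw [Int.cast_one, mul_one, zero_add] at h
  rw [h]
  simp [hour]

/-- on the circle `F` is a rotation of order 12 -/
theorem iterate_twelve {p : Mfd} (hp : p ∈ Circ) : F^[12] p = p := by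
  apply Circ_ext (iterate_mem_Circ hp 12) hp
  rw [iterate_clock hp 12]
  have : ((12 : ℕ) : ℝ) = 12 := by norm_num
  rw [this, hour_twelve, mul_one]

lemma continuous_he : Continuous he := by
  unfold he
  exact (WithLp.continuous_snd (p := 2) (α := ℂ) (β := ℝ)).comp continuous_subtype_val

lemma continuous_ze : Continuous ze := by
  unfold ze
  exact (WithLp.continuous_fst (p := 2) (α := ℂ) (β := ℝ)).comp continuous_subtype_val

lemma continuous_psi : Continuous psi := by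
  unfold psi
  fun_prop

lemma continuous_tau : Continuous tau := by
  unfold tau
  have h1 : Continuous fun p : Mfd => psi (p.2.2.2 : ℂ) :=
    continuous_psi.comp (continuous_subtype_val.comp
      (continuous_snd.comp (continuous_snd.comp continuous_snd)))
  have h2 : Continuous fun p : Mfd => he p.1 := continuous_he.comp continuous_fst
  have h3 : Continuous fun p : Mfd => he p.2.1 :=
    continuous_he.comp (continuous_fst.comp continuous_snd)
  have h4 : Continuous fun p : Mfd => he p.2.2.1 :=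
    continuous_he.comp (continuous_fst.comp (continuous_snd.comp continuous_snd))
  have h5 : Continuous fun p : Mfd => Real.smoothTransition (-he p.1) :=
    Real.smoothTransition.continuous.comp h2.neg
  exact continuous_const.sub ((h1.mul h5).mul
    (((continuous_const.sub h3).mul (continuous_const.sub h4)).div_const 4))

/-- the clock is bounded below off a ball around `PP`. -/
lemma exists_tau_lower (ε : ℝ) (hε : 0 < ε) :
    ∃ c : ℝ, 0 < c ∧ ∀ p : Mfd, ε ≤ dist p PP → c ≤ tau p := by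
  by_cases hne : ({p : Mfd | ε ≤ dist p PP}).Nonempty
  · have hcl : IsCompact {p : Mfd | ε ≤ dist p PP} :=
      (isClosed_le continuous_const (continuous_id.dist continuous_const)).isCompact
    obtain ⟨p0, hp0, hmin⟩ := hcl.exists_isMinOn hne continuous_tau.continuousOn
    refine ⟨tau p0, ?_, fun p hp => hmin hp⟩
    refine lt_of_le_of_ne (tau_nonneg p0) (fun h => ?_)
    have h1 := (tau_eq_zero_iff p0).1 h.symm
    have h2 : ε ≤ dist p0 PP := hp0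
    rw [h1, dist_self] at h2
    linarith
  · refine ⟨1, one_pos, fun p hp => ?_⟩
    exact absurd ⟨p, hp⟩ hne

/-- if the total displacement is bounded, the orbit converges to `PP`. -/
theorem tendsto_PP_of_bounded (p : Mfd) (C : ℝ)
    (hC : ∀ n, ∑ k ∈ Finset.range n, tau (F^[k] p) ≤ C) :
    Tendsto (fun n => F^[n] p) atTop (𝓝 PP) := by
  have hsum : Summable fun k => tau (F^[k] p) :=
    summable_of_sum_range_le (fun k => tau_nonneg _) hC
  have h0 := hsum.tendsto_atTop_zero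
  rw [Metric.tendsto_atTop]
  intro ε hε
  obtain ⟨c, hc, hlow⟩ := exists_tau_lower ε hε
  obtain ⟨N, hN⟩ := eventually_atTop.1 (h0.eventually (gt_mem_nhds hc))
  refine ⟨N, fun n hn => ?_⟩
  by_contra hcon
  exact absurd (hlow _ (not_lt.1 hcon)) (not_le.2 (hN n hn))

/-- absorbed or convergent to `PP` -/
theorem dichotomy_of (habs : ∀ p : Mfd, (∀ C : ℝ, ∃ n, C ≤ ∑ k ∈ Finset.range n, tau (F^[k] p)) →
      ∃ n0, ∀ n ≥ n0, F^[n] p ∈ Circ) (p : Mfd) :
    (∃ n, F^[n] p ∈ Circ) ∨ Tendsto (fun n => F^[n] p) atTop (𝓝 PP) := by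
  by_cases hun : ∀ C : ℝ, ∃ n, C ≤ ∑ k ∈ Finset.range n, tau (F^[k] p)
  · obtain ⟨n0, h0⟩ := habs p hun
    exact Or.inl ⟨n0, h0 n0 le_rfl⟩
  · push Not at hun
    obtain ⟨C, hC⟩ := hun
    exact Or.inr (tendsto_PP_of_bounded p C fun n => (hC n).le)

theorem entropy_zero_of (hcont : Continuous F)
    (hd : ∀ p : Mfd, (∃ n, F^[n] p ∈ Circ) ∨ Tendsto (fun n => F^[n] p) atTop (𝓝 PP)) :
    Dynamics.coverEntropy F Set.univ = 0 := by
  have : Nonempty Mfd := ⟨PP⟩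
  refine coverEntropy_eq_zero_of_tendsto F hcont (q := 12) (by norm_num) ?_
  intro p
  rcases hd p with ⟨n, hn⟩ | h
  · apply tendsto_atTop_of_eventually_const (i₀ := n)
    intro m hm
    obtain ⟨k, rfl⟩ := Nat.exists_eq_add_of_le hm
    have h1 : F^[n + k] p ∈ Circ := by
      rw [add_comm, Function.iterate_add_apply]
      exact iterate_mem_Circ hn k
    have h2 : F^[n + k + 12] p = F^[n + k] p := by
      rw [add_comm (n + k) 12, Function.iterate_add_apply]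
      exact iterate_twelve h1
    rw [h2, dist_self]
  · have h1 : Tendsto (fun n => F^[n + 12] p) atTop (𝓝 PP) := (tendsto_add_atTop_iff_nat 12).2 h
    have h2 := h.dist h1
    rwa [dist_self] at h2

end Crest.Agent.R123.FB
end

-- ▼ part R123/XDyn
section

/-!
R123 / XDyn (helper758): abstract orbit theorem for the design of note 3094.

`XOrb` packages the sequences of coordinates of an orbit together with the facts about the map which
the argument uses. Main theorem `XOrb.main`: if the clock is unbounded then eventually the orbit is on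
the rotation circle (`inf` and `w = 0`).
-/

set_option autoImplicit false

open Filter

namespace Crest.Agent.R123

/-- coordinates of an orbit: `inf n` means that the first sphere coordinate is `∞`, otherwise it is
`u n`; `w n` are the carriers, `σ n` is the (lifted) clock. -/
structure XOrb where
  inf : ℕ → Prop
  u : ℕ → ℂ
  w : ℕ → ℂ × ℂ
  σ : ℕ → ℝ
  /-- step of the clock -/
  τ : ℕ → ℝ
  /-- `u' = κ u² + E w` -/
  κ : ℕ → ℝ
  /-- values of the hour functions along the orbit -/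
  S : ℕ → ℝ
  γ : ℕ → ℝ
  /-- the cut-off identity -/
  b : ℂ × ℂ → ℂ × ℂ
  b_id : ∀ w : ℂ × ℂ, ‖w‖ ≤ 1 / 8 → b w = w
  σ_succ : ∀ n, σ (n + 1) = σ n + τ n
  τ_nonneg : ∀ n, 0 ≤ τ n
  τ_le_one : ∀ n, τ n ≤ 1
  /-- the clock has full speed for `1 ≤ ‖u‖` -/
  τ_one : ∀ n, ¬ inf n → 1 ≤ ‖u n‖ → τ n = 1
  /-- waiting near hour 5 when `u = 0` -/
  wait_neg : ∀ n (k : ℤ), ¬ inf n → u n = 0 → 12 * (k : ℝ) + 3 ≤ σ n → σ n ≤ 12 * k + 5 →
    ‖w n‖ ≤ 1 / 512 → σ (n + 1) ≤ 12 * k + 5 + ‖w n‖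
  wait_pos : ∀ n (k : ℤ), ¬ inf n → u n = 0 → 12 * (k : ℝ) + 5 ≤ σ n → σ n ≤ 12 * k + 5 + ‖w n‖ →
    ‖w n‖ ≤ 1 / 512 → σ (n + 1) ≤ 12 * k + 5 + 8 * ‖w n‖
  /-- first sphere -/
  inf_succ : ∀ n, inf n → inf (n + 1)
  not_inf : ∀ n, ¬ inf n → ‖u n‖ ≤ 4 → ¬ inf (n + 1)
  u_succ : ∀ n, ¬ inf n → ¬ inf (n + 1) → u (n + 1) = (κ n : ℂ) * u n ^ 2 + kickE (w n)
  κ_nonneg : ∀ n, 0 ≤ κ n
  κ_le_one : ∀ n, ¬ inf n → ‖u n‖ ≤ 4 → κ n ≤ 1
  one_le_κ : ∀ n, ¬ inf n → ¬ inf (n + 1) → 16 ≤ ‖u n‖ → 1 ≤ κ n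
  κ_one : ∀ n (k : ℤ), ¬ inf n → 12 * (k : ℝ) ≤ σ n → σ n ≤ 12 * k + 2 → κ n = 1
  κ_zero : ∀ n (k : ℤ), ¬ inf n → 12 * (k : ℝ) + 3 ≤ σ n → σ n ≤ 12 * k + 4 → ‖u n‖ ≤ 4 → κ n = 0
  inf_of : ∀ n (k : ℤ), ¬ inf n → 12 * (k : ℝ) + 3 ≤ σ n → σ n ≤ 12 * k + 4 → 16 ≤ ‖u n‖ →
    inf (n + 1)
  /-- carriers -/
  w_succ : ∀ n, ¬ inf n → w (n + 1) = (S n : ℂ) • b (A (w n)) + (γ n : ℂ) • H (u n ^ 2)
  w_succ_inf : ∀ n, inf n → w (n + 1) = (S n : ℂ) • b (A (w n))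
  S_one : ∀ n (k : ℤ), 12 * (k : ℝ) + 1 ≤ σ n → σ n ≤ 12 * k + 7 → S n = 1
  S_zero : ∀ n (k : ℤ), 12 * (k : ℝ) + 11 ≤ σ n → σ n ≤ 12 * k + 12 → S n = 0
  γ_nonneg : ∀ n, 0 ≤ γ n
  γ_le_one : ∀ n, γ n ≤ 1
  γ_zero : ∀ n (k : ℤ), 12 * (k : ℝ) + 2 ≤ σ n → σ n ≤ 12 * k + 12 → γ n = 0
  γ_add : ∀ n (k : ℤ), 12 * (k : ℝ) ≤ σ n → σ n ≤ 12 * k + 1 → σ (n + 1) = σ n + 1 →
    γ n + γ (n + 1) = 1

namespace XOrb

variable (o : XOrb)

lemma b_zero : o.b 0 = 0 := o.b_id 0 (by simp)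

lemma A_zero : A (0 : ℂ × ℂ) = 0 := by
  unfold A; simp

lemma A_smul (c : ℂ) (w : ℂ × ℂ) : A (c • w) = c • A w := by
  unfold A
  refine Prod.ext ?_ ?_ <;> simp <;> ring

lemma norm_A (w : ℂ × ℂ) : ‖A w‖ = 8 * ‖w‖ := by
  unfold A
  rw [Prod.norm_def, Prod.norm_def]
  simp only [norm_mul]
  rw [show ‖(8 : ℂ)‖ = 8 by norm_num, ← mul_max_of_nonneg _ _ (by norm_num : (0 : ℝ) ≤ 8), max_comm]

lemma norm_H_le (v : ℂ) : ‖H v‖ ≤ 1 / 8 := by
  rw [Prod.norm_def]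
  exact max_le (norm_H_fst_le v) ((norm_H_snd_le v).trans (by norm_num))

lemma norm_H_le_of_le {v : ℂ} (h : ‖v‖ ≤ 2) : ‖H v‖ ≤ 1 / 512 := by
  rw [Prod.norm_def]
  exact max_le (norm_H_fst_le_of_le (by linarith)) ((norm_H_snd_le_of_le h).trans (by norm_num))

lemma σ_mono : Monotone o.σ := by
  refine monotone_nat_of_le_succ (fun n => ?_)
  rw [o.σ_succ]
  linarith [o.τ_nonneg n]

/-- the clock does not jump over a unit interval -/
lemma exists_hit (hun : ∀ C : ℝ, ∃ n, C ≤ o.σ n) (N : ℕ) (a : ℝ) (ha : o.σ N ≤ a) :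
    ∃ n, N ≤ n ∧ a ≤ o.σ n ∧ o.σ n < a + 1 := by
  classical
  have hex : ∃ n, N ≤ n ∧ a ≤ o.σ n := by
    obtain ⟨n, hn⟩ := hun a
    exact ⟨max n N, le_max_right _ _, hn.trans (o.σ_mono (le_max_left _ _))⟩
  obtain ⟨h1, h2⟩ := Nat.find_spec hex
  refine ⟨Nat.find hex, h1, h2, ?_⟩
  rcases Nat.eq_or_lt_of_le h1 with h3 | h3
  · rw [← h3]; linarith
  · obtain ⟨m, hm⟩ : ∃ m, Nat.find hex = m + 1 := ⟨Nat.find hex - 1, by omega⟩
    have h4 : ¬ (N ≤ m ∧ a ≤ o.σ m) := Nat.find_min hex (by omega)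
    have h5 : o.σ m < a := by
      by_contra hc
      exact h4 ⟨by omega, le_of_not_gt hc⟩
    rw [hm, o.σ_succ]
    linarith [o.τ_le_one m]

/-- on the rotation circle for ever -/
lemma stay_inf {n : ℕ} (h : o.inf n) : ∀ m, n ≤ m → o.inf m := by
  intro m hm
  induction m, hm using Nat.le_induction with
  | base => exact h
  | succ m _ ih => exact o.inf_succ m ih

lemma stay_circle {n : ℕ} (h : o.inf n) (hw : o.w n = 0) : ∀ m, n ≤ m → o.inf m ∧ o.w m = 0 := by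
  intro m hm
  refine ⟨o.stay_inf h m hm, ?_⟩
  induction m, hm using Nat.le_induction with
  | base => exact hw
  | succ m hm ih =>
    rw [o.w_succ_inf m (o.stay_inf h m hm), ih, A_zero, o.b_zero, smul_zero]

/-- once `inf`, the carriers are killed at the next hour 11 -/
lemma circle_of_inf (hun : ∀ C : ℝ, ∃ n, C ≤ o.σ n) {n : ℕ} (h : o.inf n) :
    ∃ n₀, ∀ m, n₀ ≤ m → o.inf m ∧ o.w m = 0 := by
  obtain ⟨k, hk⟩ := exists_int_gt (o.σ n)
  have hk' : o.σ n ≤ 12 * ((|k| : ℤ) : ℝ) + 11 := by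
    have h1 : (k : ℝ) ≤ ((|k| : ℤ) : ℝ) := by exact_mod_cast le_abs_self k
    have h2 : (0 : ℝ) ≤ ((|k| : ℤ) : ℝ) := by exact_mod_cast abs_nonneg k
    linarith
  obtain ⟨m, hm1, hm2, hm3⟩ := o.exists_hit hun n _ hk'
  refine ⟨m + 1, o.stay_circle (o.stay_inf h _ (by omega)) ?_⟩
  rw [o.w_succ_inf m (o.stay_inf h m hm1), o.S_zero m |k| hm2 (by linarith)]
  simp

/-- large `u` is absorbing -/
lemma big_succ {n : ℕ} (h : o.inf n ∨ 16 ≤ ‖o.u n‖) : o.inf (n + 1) ∨ 16 ≤ ‖o.u (n + 1)‖ := by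
  by_cases h1 : o.inf n
  · exact Or.inl (o.inf_succ n h1)
  by_cases h2 : o.inf (n + 1)
  · exact Or.inl h2
  right
  have h3 : 16 ≤ ‖o.u n‖ := h.resolve_left h1
  rw [o.u_succ n h1 h2]
  have h4 := o.one_le_κ n h1 h2 h3
  have h5 : ‖(o.κ n : ℂ) * o.u n ^ 2‖ ≥ 256 := by
    rw [norm_mul, Complex.norm_real, Real.norm_of_nonneg (o.κ_nonneg n), norm_pow]
    have : (256 : ℝ) ≤ ‖o.u n‖ ^ 2 := by nlinarith
    nlinarith
  have h6 := norm_kickE_le (o.w n)
  have h7 := norm_sub_le_norm_add ((o.κ n : ℂ) * o.u n ^ 2) (kickE (o.w n))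
  linarith

lemma big_stay {n : ℕ} (h : o.inf n ∨ 16 ≤ ‖o.u n‖) :
    ∀ m, n ≤ m → (o.inf m ∨ 16 ≤ ‖o.u m‖) := by
  intro m hm
  induction m, hm using Nat.le_induction with
  | base => exact h
  | succ m _ ih => exact o.big_succ ih

lemma circle_of_big (hun : ∀ C : ℝ, ∃ n, C ≤ o.σ n) {n : ℕ} (h : o.inf n ∨ 16 ≤ ‖o.u n‖) :
    ∃ n₀, ∀ m, n₀ ≤ m → o.inf m ∧ o.w m = 0 := by
  obtain ⟨k, hk⟩ := exists_int_gt (o.σ n)
  have hk' : o.σ n ≤ 12 * ((|k| : ℤ) : ℝ) + 3 := by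
    have h1 : (k : ℝ) ≤ ((|k| : ℤ) : ℝ) := by exact_mod_cast le_abs_self k
    have h2 : (0 : ℝ) ≤ ((|k| : ℤ) : ℝ) := by exact_mod_cast abs_nonneg k
    linarith
  obtain ⟨m, hm1, hm2, hm3⟩ := o.exists_hit hun n _ hk'
  have h1 := o.big_stay h m hm1
  by_cases h2 : o.inf m
  · exact o.circle_of_inf hun h2
  · exact o.circle_of_inf hun (o.inf_of m |k| h2 hm2 (by linarith) (h1.resolve_left h2))

/-- there is a time with `w = 0` in hour `[0,1)` -/
lemma exists_start (hun : ∀ C : ℝ, ∃ n, C ≤ o.σ n) :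
    ∃ (m : ℕ) (k : ℤ), 12 * (k : ℝ) ≤ o.σ m ∧ o.σ m < 12 * k + 1 ∧ o.w m = 0 := by
  classical
  obtain ⟨k, hk⟩ := exists_int_gt (o.σ 0)
  have hk' : o.σ 0 < 12 * (((|k| + 1 : ℤ)) : ℝ) := by
    have h1 : (k : ℝ) ≤ ((|k| : ℤ) : ℝ) := by exact_mod_cast le_abs_self k
    have h2 : (0 : ℝ) ≤ ((|k| : ℤ) : ℝ) := by exact_mod_cast abs_nonneg k
    push_cast at h1 h2 ⊢
    linarith
  set K : ℤ := |k| + 1 with hK
  have hex : ∃ n, 12 * (K : ℝ) ≤ o.σ n := hun _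
  have h1 := Nat.find_spec hex
  obtain ⟨m, hm⟩ : ∃ m, Nat.find hex = m + 1 := by
    refine ⟨Nat.find hex - 1, ?_⟩
    have : Nat.find hex ≠ 0 := by
      intro h0
      rw [h0] at h1
      linarith
    omega
  have h2 : ¬ (12 * (K : ℝ) ≤ o.σ m) := Nat.find_min hex (by omega)
  rw [hm] at h1
  have h3 := o.σ_succ m
  have h4 := o.τ_le_one m
  have h5 : 12 * (((K - 1 : ℤ)) : ℝ) + 11 ≤ o.σ m := by push_cast; linarith
  have h6 : o.σ m ≤ 12 * (((K - 1 : ℤ)) : ℝ) + 12 := by push_cast; linarith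
  have hS := o.S_zero m (K - 1) h5 h6
  have hγ := o.γ_zero m (K - 1) (by linarith) h6
  refine ⟨m + 1, K, h1, by linarith, ?_⟩
  by_cases h7 : o.inf m
  · rw [o.w_succ_inf m h7, hS]; simp
  · rw [o.w_succ m h7, hS, hγ]; simp

/-- `‖u‖ ≤ 1` and `w = 0` at hour `[0,1)` contradicts an unbounded clock. -/
lemma small_absurd (hun : ∀ C : ℝ, ∃ n, C ≤ o.σ n) {m : ℕ} {k : ℤ}
    (h2 : o.σ m < 12 * k + 1) (hw : o.w m = 0)
    (hi : ¬ o.inf m) (hu : ‖o.u m‖ ≤ 1) : False := by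
  have key : ∀ n, m ≤ n → ¬ o.inf n ∧ ‖o.u n‖ ≤ 1 ∧ o.w n = 0 := by
    intro n hn
    induction n, hn using Nat.le_induction with
    | base => exact ⟨hi, hu, hw⟩
    | succ n hn ih =>
      obtain ⟨a1, a2, a3⟩ := ih
      have a4 := o.not_inf n a1 (by linarith)
      have a5 : ‖o.u n ^ 2‖ ≤ 1 := by
        rw [norm_pow]; exact pow_le_one₀ (norm_nonneg _) a2
      refine ⟨a4, ?_, ?_⟩
      · rw [o.u_succ n a1 a4, a3, kickE_zero, add_zero, norm_mul, Complex.norm_real,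
          Real.norm_of_nonneg (o.κ_nonneg n)]
        have a6 := o.κ_le_one n a1 (by linarith)
        have a7 := o.κ_nonneg n
        nlinarith [norm_nonneg (o.u n ^ 2)]
      · rw [o.w_succ n a1, a3, A_zero, o.b_zero, H_zero_of_le_one a5]
        simp
  obtain ⟨p, hp1, hp2, hp3⟩ := o.exists_hit hun m (12 * (k : ℝ) + 3) (by linarith)
  obtain ⟨b1, b2, b3⟩ := key p hp1
  have b4 : o.u (p + 1) = 0 := by
    rw [o.u_succ p b1 (key (p + 1) (by omega)).1,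
      o.κ_zero p k b1 hp2 (by linarith) (by linarith), b3, kickE_zero]
    simp
  have hu0 : ∀ n, p + 1 ≤ n → o.u n = 0 := by
    intro n hn
    induction n, hn using Nat.le_induction with
    | base => exact b4
    | succ n hn ih =>
      rw [o.u_succ n (key n (by omega)).1 (key (n + 1) (by omega)).1, ih,
        (key n (by omega)).2.2, kickE_zero]
      simp
  have hσ : ∀ n, p + 1 ≤ n → 12 * (k : ℝ) + 3 ≤ o.σ n ∧ o.σ n ≤ 12 * k + 5 := by
    intro n hn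
    induction n, hn using Nat.le_induction with
    | base =>
      have := o.σ_succ p
      have h4 := o.τ_le_one p
      have h5 := o.τ_nonneg p
      constructor <;> linarith
    | succ n hn ih =>
      have h3 := (key n (by omega)).2.2
      have h4 := o.wait_neg n k (key n (by omega)).1 (hu0 n hn) ih.1 ih.2 (by rw [h3]; simp)
      rw [h3, norm_zero, add_zero] at h4
      exact ⟨ih.1.trans (o.σ_mono (Nat.le_succ n)), h4⟩
  obtain ⟨q, hq⟩ := hun (12 * (k : ℝ) + 6)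
  have h3 := (hσ (max q (p + 1)) (le_max_right _ _)).2
  have h4 := o.σ_mono (le_max_left q (p + 1))
  linarith

/-- one aligned step -/
lemma aligned_step {n : ℕ} {v : ℂ} (hv : ‖v‖ ≤ 4) (hi : ¬ o.inf n) (hi' : ¬ o.inf (n + 1))
    (hw : o.w n = H v) (hu : ∃ r : ℝ, 0 ≤ r ∧ o.u n = (r : ℂ) * v) (hS : o.S n = 1)
    (hγ : o.γ n = 0) :
    o.w (n + 1) = H (v ^ 2) ∧ ∃ r : ℝ, 0 ≤ r ∧ o.u (n + 1) = (r : ℂ) * v ^ 2 := by
  constructor
  · rw [o.w_succ n hi, hS, hγ, hw, A_H hv, o.b_id _ (norm_H_le _)]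
    simp
  · obtain ⟨r, hr, hr'⟩ := hu
    obtain ⟨e, he, he'⟩ := kickE_align (c := 1) zero_le_one le_rfl v
    rw [Complex.ofReal_one, one_smul] at he'
    refine ⟨o.κ n * r ^ 2 + e, ?_, ?_⟩
    · have := o.κ_nonneg n
      positivity
    · rw [o.u_succ n hi hi', hw, he', hr']
      push_cast
      ring

/-- an aligned state with `4 ≤ ‖v‖ ≤ 16` becomes big -/
lemma aligned_big {n : ℕ} {v : ℂ} (hv : 4 ≤ ‖v‖) (hv' : ‖v‖ ≤ 16) (hi : ¬ o.inf n)
    (hi' : ¬ o.inf (n + 1)) (hw : o.w n = H v) (hu : ∃ r : ℝ, 0 ≤ r ∧ o.u n = (r : ℂ) * v) :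
    16 ≤ ‖o.u (n + 1)‖ := by
  obtain ⟨r, hr, hr'⟩ := hu
  obtain ⟨e, he, he'⟩ := kickE_align (c := 1) zero_le_one le_rfl v
  rw [Complex.ofReal_one, one_smul] at he'
  have h1 := norm_kickE_ge hv hv'
  have hκ := o.κ_nonneg n
  have h2 : o.u (n + 1) = ((o.κ n * r ^ 2 : ℝ) : ℂ) * v ^ 2 + (e : ℂ) * v ^ 2 := by
    rw [o.u_succ n hi hi', hw, he', hr']
    push_cast
    ring
  rw [h2, norm_aligned_add (by positivity) he, ← he']
  have := norm_nonneg (((o.κ n * r ^ 2 : ℝ) : ℂ) * v ^ 2)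
  linarith

/-- `‖u‖ > 1` and `w = 0` at hour `[0,1)`: the orbit gets big. -/
lemma large_big {m : ℕ} {k : ℤ}
    (h1 : 12 * (k : ℝ) ≤ o.σ m) (h2 : o.σ m < 12 * k + 1) (hw : o.w m = 0)
    (hu : 1 < ‖o.u m‖) : ∃ n, o.inf n ∨ 16 ≤ ‖o.u n‖ := by
  classical
  by_contra hcon
  push Not at hcon
  have hinf : ∀ n, ¬ o.inf n := fun n => (hcon n).1
  have hlt : ∀ n, ‖o.u n‖ < 16 := fun n => (hcon n).2
  -- the clock
  have t0 : o.τ m = 1 := o.τ_one m (hinf m) hu.le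
  have s1 : o.σ (m + 1) = o.σ m + 1 := by rw [o.σ_succ, t0]
  have k0 : o.κ m = 1 := o.κ_one m k (hinf m) h1 (by linarith)
  have k1 : o.κ (m + 1) = 1 := o.κ_one (m + 1) k (hinf _) (by linarith) (by linarith)
  -- the virtual coordinate
  set V : ℕ → ℂ := fun j => o.u m ^ (2 ^ j) with hV
  have hVs : ∀ j, V (j + 1) = V j ^ 2 := by
    intro j
    simp only [hV]
    rw [← pow_mul, pow_succ]
  have hVn : ∀ j, ‖V (j + 1)‖ = ‖V j‖ ^ 2 := by
    intro j
    rw [hVs, norm_pow]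
  have hV0 : V 0 = o.u m := by simp [hV]
  have hV1 : V 1 = o.u m ^ 2 := by simp [hV]
  have hex : ∃ j, 4 ≤ ‖V j‖ := by
    obtain ⟨N, hN⟩ := pow_unbounded_of_one_lt 4 hu
    refine ⟨N, ?_⟩
    simp only [hV]
    rw [norm_pow]
    calc (4 : ℝ) ≤ ‖o.u m‖ ^ N := hN.le
      _ ≤ ‖o.u m‖ ^ (2 ^ N) := pow_le_pow_right₀ hu.le Nat.lt_two_pow_self.le
  -- times 1 and 2
  have u1 : o.u (m + 1) = V 1 := by
    rw [o.u_succ m (hinf _) (hinf _), k0, hw, kickE_zero, hV1]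
    simp
  have w1 : o.w (m + 1) = (o.γ m : ℂ) • H (V 1) := by
    rw [o.w_succ m (hinf _), hw, A_zero, o.b_zero, smul_zero, zero_add, hV1]
  have hone : ∀ j, 1 < ‖V j‖ := by
    intro j
    simp only [hV]
    rw [norm_pow]
    exact one_lt_pow₀ hu (by positivity)
  have t1 : o.τ (m + 1) = 1 := o.τ_one (m + 1) (hinf _) (by rw [u1]; exact (hone 1).le)
  have s2 : o.σ (m + 2) = o.σ m + 2 := by
    rw [show m + 2 = m + 1 + 1 from rfl, o.σ_succ, t1, s1]; ring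
  have g0 := o.γ_nonneg m
  have g1 := o.γ_le_one m
  have u2 : o.u (m + 2) = V 2 + kickE ((o.γ m : ℂ) • H (V 1)) := by
    rw [show m + 2 = m + 1 + 1 from rfl, o.u_succ (m + 1) (hinf _) (hinf _), k1, w1, u1,
      hVs 1]
    simp
  obtain ⟨e, he, he'⟩ := kickE_align g0 g1 (V 1)
  rw [← hVs 1] at he'
  have t2 : o.τ (m + 2) = 1 := by
    refine o.τ_one (m + 2) (hinf _) ?_
    have h5 : V 2 + (e : ℂ) * V (1 + 1) = ((1 + e : ℝ) : ℂ) * V 2 := by
      push_cast; ring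
    rw [u2, he', h5, norm_mul, Complex.norm_real, Real.norm_of_nonneg (by positivity)]
    nlinarith [hone 2]
  have s3 : o.σ (m + 3) = o.σ m + 3 := by
    rw [show m + 3 = m + 2 + 1 from rfl, o.σ_succ, t2, s2]; ring
  have hV1lt : ‖V 1‖ < 4 := by
    by_contra hc
    have h3 := hlt (m + 2)
    rw [u2, he'] at h3
    have h4 : V (1 + 1) = ((1 : ℝ) : ℂ) * V (1 + 1) := by simp
    have h5 : V 2 + (e : ℂ) * V (1 + 1) = ((1 : ℝ) : ℂ) * V (1 + 1) + (e : ℂ) * V (1 + 1) := by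
      rw [← h4]
    rw [h5, norm_aligned_add zero_le_one he, ← h4, hVn 1] at h3
    have := norm_nonneg ((e : ℂ) * V (1 + 1))
    have := le_of_not_gt hc
    nlinarith
  have w2 : o.w (m + 2) = H (V 2) := by
    have hS : o.S (m + 1) = 1 := o.S_one (m + 1) k (by linarith) (by linarith)
    have h3 : A ((o.γ m : ℂ) • H (V 1)) = (o.γ m : ℂ) • H (V 2) := by
      rw [A_smul, A_H hV1lt.le, hVs 1]
    have h4 : ‖(o.γ m : ℂ) • H (V 2)‖ ≤ 1 / 8 := by
      rw [norm_smul, Complex.norm_real, Real.norm_of_nonneg g0]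
      nlinarith [norm_H_le (V 2), norm_nonneg (H (V 2))]
    rw [show m + 2 = m + 1 + 1 from rfl, o.w_succ (m + 1) (hinf _), hS, w1, h3, o.b_id _ h4, u1,
      ← hVs 1, Complex.ofReal_one, one_smul, ← add_smul, ← Complex.ofReal_add,
      o.γ_add m k h1 h2.le s1, Complex.ofReal_one, one_smul]
  have a2 : ∃ r : ℝ, 0 ≤ r ∧ o.u (m + 2) = (r : ℂ) * V 2 := by
    refine ⟨1 + e, by positivity, ?_⟩
    rw [u2, he']
    push_cast
    ring
  -- first time with `‖V‖ ≥ 4`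
  set J := Nat.find hex with hJ
  have hJ4 : 4 ≤ ‖V J‖ := Nat.find_spec hex
  have hJlt : ∀ j, j < J → ‖V j‖ < 4 := by
    intro j hj
    have := Nat.find_min hex hj
    exact lt_of_not_ge this
  have hJlt2 : ∀ j, j + 1 < J → ‖V j‖ < 2 := by
    intro j hj
    have h3 := hJlt (j + 1) hj
    rw [hVn] at h3
    nlinarith [norm_nonneg (V j)]
  have hJ2 : 2 ≤ J := by
    by_contra hc
    have h3 : J = 0 ∨ J = 1 := by omega
    rcases h3 with h3 | h3
    · rw [h3, hV0] at hJ4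
      have h4 : ‖V 1‖ = ‖o.u m‖ ^ 2 := by rw [hV1, norm_pow]
      nlinarith
    · rw [h3] at hJ4; linarith
  have hJ16 : ‖V J‖ ≤ 16 := by
    obtain ⟨j, hj⟩ : ∃ j, J = j + 1 := ⟨J - 1, by omega⟩
    have h3 := hJlt j (by omega)
    rw [hj, hVn]
    nlinarith [norm_nonneg (V j)]
  -- it suffices to be aligned at time `J`
  have fin : ¬ (o.w (m + J) = H (V J) ∧ ∃ r : ℝ, 0 ≤ r ∧ o.u (m + J) = (r : ℂ) * V J) := by
    rintro ⟨h3, h4⟩
    have := o.aligned_big hJ4 hJ16 (hinf _) (hinf _) h3 h4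
    linarith [hlt (m + J + 1)]
  by_cases J2 : J = 2
  · rw [J2] at fin; exact fin ⟨w2, a2⟩
  have v2 : ‖V 2‖ < 4 := hJlt 2 (by omega)
  have v1 : ‖V 1‖ < 2 := hJlt2 1 (by omega)
  have u2' : o.u (m + 2) = V 2 := by
    rw [u2, kickE_H_zero g0 g1 v1.le, add_zero]
  obtain ⟨w3, a3⟩ := o.aligned_step v2.le (hinf (m + 2)) (hinf _) w2 a2
    (o.S_one _ k (by linarith) (by linarith)) (o.γ_zero _ k (by linarith) (by linarith))
  rw [← hVs 2] at w3 a3
  by_cases J3 : J = 3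
  · rw [J3] at fin; exact fin ⟨w3, a3⟩
  have v3 : ‖V 3‖ < 4 := hJlt 3 (by omega)
  have v2' : ‖V 2‖ < 2 := hJlt2 2 (by omega)
  have e2 : kickE (H (V 2)) = 0 := by
    have := kickE_H_zero (c := 1) zero_le_one le_rfl v2'.le
    simpa using this
  have u3 : ‖o.u (m + 3)‖ ≤ 4 := by
    rw [show m + 3 = m + 2 + 1 from rfl, o.u_succ (m + 2) (hinf _) (hinf _), w2, e2, add_zero, u2',
      norm_mul, Complex.norm_real, Real.norm_of_nonneg (o.κ_nonneg _), ← hVs 2]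
    have h3 := o.κ_le_one (m + 2) (hinf _) (by rw [u2']; exact v2.le)
    have h4 := o.κ_nonneg (m + 2)
    have : V (2 + 1) = V 3 := rfl
    rw [this]
    nlinarith [norm_nonneg (V 3)]
  obtain ⟨w4, a4⟩ := o.aligned_step v3.le (hinf (m + 3)) (hinf _) w3 a3
    (o.S_one _ k (by linarith) (by linarith)) (o.γ_zero _ k (by linarith) (by linarith))
  rw [← hVs 3] at w4 a4
  by_cases J4 : J = 4
  · rw [J4] at fin; exact fin ⟨w4, a4⟩
  have v3' : ‖V 3‖ < 2 := hJlt2 3 (by omega)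
  have e3 : kickE (H (V 3)) = 0 := by
    have := kickE_H_zero (c := 1) zero_le_one le_rfl v3'.le
    simpa using this
  have u4 : o.u (m + 4) = 0 := by
    rw [show m + 4 = m + 3 + 1 from rfl, o.u_succ (m + 3) (hinf _) (hinf _),
      o.κ_zero (m + 3) k (hinf _) (by linarith) (by linarith) u3, w3]
    have : V (2 + 1) = V 3 := rfl
    rw [this, e3]
    simp
  have s4 : o.σ (m + 4) = o.σ (m + 3) + o.τ (m + 3) := o.σ_succ (m + 3)
  have t3 := o.τ_nonneg (m + 3)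
  have t3' := o.τ_le_one (m + 3)
  -- waiting
  have wait : ∀ j, 4 ≤ j → j + 1 ≤ J → o.w (m + j) = H (V j) ∧ o.u (m + j) = 0 ∧
      12 * (k : ℝ) + 3 ≤ o.σ (m + j) ∧ o.σ (m + j) ≤ 12 * k + 5 + ‖H (V j)‖ := by
    intro j hj
    induction j, hj using Nat.le_induction with
    | base =>
      intro _
      refine ⟨w4, u4, by linarith, ?_⟩
      have := norm_nonneg (H (V 4))
      linarith
    | succ j hj ih =>
      intro hj'
      obtain ⟨i1, i2, i3, i4⟩ := ih (by omega)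
      have vj : ‖V j‖ < 2 := hJlt2 j (by omega)
      have hH : ‖H (V j)‖ ≤ 1 / 512 := norm_H_le_of_le vj.le
      obtain ⟨w5, _⟩ := o.aligned_step (v := V j) (by linarith) (hinf (m + j)) (hinf _) i1
        ⟨0, le_rfl, by rw [i2]; simp⟩
        (o.S_one _ k (by linarith) (by linarith)) (o.γ_zero _ k (by linarith) (by linarith))
      rw [← hVs j] at w5
      have ej : kickE (H (V j)) = 0 := by
        have := kickE_H_zero (c := 1) zero_le_one le_rfl vj.le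
        simpa using this
      have hA : ‖H (V (j + 1))‖ = 8 * ‖H (V j)‖ := by
        rw [hVs j, ← A_H (v := V j) (by linarith), norm_A]
      refine ⟨w5, ?_, ?_, ?_⟩
      · rw [show m + (j + 1) = m + j + 1 from rfl, o.u_succ (m + j) (hinf _) (hinf _), i1, i2, ej]
        simp
      · exact i3.trans (o.σ_mono (by omega))
      · rw [hA]
        by_cases hs : o.σ (m + j) ≤ 12 * k + 5
        · have h3 := o.wait_neg (m + j) k (hinf _) i2 i3 hs (by rw [i1]; exact hH)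
          rw [i1] at h3
          have h4 := norm_nonneg (H (V j))
          have h5 : o.σ (m + (j + 1)) ≤ 12 * k + 5 + ‖H (V j)‖ := h3
          linarith
        · have h3 := o.wait_pos (m + j) k (hinf _) i2 (le_of_not_ge hs)
            (by rw [i1]; exact i4) (by rw [i1]; exact hH)
          rw [i1] at h3
          exact h3
  obtain ⟨j, hj⟩ : ∃ j, J = j + 1 := ⟨J - 1, by omega⟩
  obtain ⟨i1, i2, i3, i4⟩ := wait j (by omega) (by omega)
  have vj : ‖V j‖ < 4 := hJlt j (by omega)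
  have hH : ‖H (V j)‖ ≤ 1 / 8 := norm_H_le _
  have last := o.aligned_step (v := V j) vj.le (hinf (m + j)) (hinf _) i1
    ⟨0, le_rfl, by rw [i2]; simp⟩
    (o.S_one _ k (by linarith) (by linarith)) (o.γ_zero _ k (by linarith) (by linarith))
  rw [← hVs j] at last
  rw [hj] at fin
  exact fin last

/-- **Main theorem**: if the clock is unbounded, then the orbit is eventually on the circle. -/
theorem main (hun : ∀ C : ℝ, ∃ n, C ≤ o.σ n) : ∃ n₀, ∀ m, n₀ ≤ m → o.inf m ∧ o.w m = 0 := by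
  obtain ⟨m, k, h1, h2, hw⟩ := o.exists_start hun
  by_cases hi : o.inf m
  · exact o.circle_of_inf hun hi
  by_cases hu : ‖o.u m‖ ≤ 1
  · exact (o.small_absurd hun h2 hw hi hu).elim
  · obtain ⟨n, hn⟩ := o.large_big h1 h2 hw (lt_of_not_ge hu)
    exact o.circle_of_big hun hn

end XOrb

end Crest.Agent.R123
end

-- ▼ part R123/XOrbits
section

/-!
R123 / XOrbits (helper758): every orbit of `F` with unbounded clock is eventually in `Circ`.
-/

set_option autoImplicit false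

noncomputable section

open Filter

namespace Crest.Agent.R123

namespace XO

/-- affine coordinate on the first sphere -/
def uc (x : S2) : ℂ := by
  classical
  exact if h : ∃ v : ℂ, x = jj v then h.choose else 0

lemma uc_jj (v : ℂ) : uc (jj v) = v := by
  have h : ∃ v' : ℂ, jj v = jj v' := ⟨v, rfl⟩
  unfold uc
  rw [dif_pos h]
  exact (jj_injective h.choose_spec).symm

lemma jj_uc {x : S2} (h : x ≠ north) : jj (uc x) = x := by
  obtain ⟨v, hv⟩ := (eq_north_or_jj x).resolve_left h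
  rw [hv, uc_jj]

/-- the orbit (started at `F p`) -/
def xx (p : Mfd) (n : ℕ) : Mfd := F^[n + 1] p

lemma xx_succ (p : Mfd) (n : ℕ) : xx p (n + 1) = F (xx p n) := by
  unfold xx
  rw [Function.iterate_succ_apply']

/-- the lifted clock -/
def sg (p : Mfd) (n : ℕ) : ℝ :=
  (exists_hour (xx p 0).2.2.2).choose + ∑ k ∈ Finset.range n, tau (xx p k)

lemma sg_succ (p : Mfd) (n : ℕ) : sg p (n + 1) = sg p n + tau (xx p n) := by
  unfold sg
  rw [Finset.sum_range_succ]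
  ring

lemma z_eq (p : Mfd) (n : ℕ) : ((xx p n).2.2.2 : ℂ) = hour (sg p n) := by
  induction n with
  | zero =>
    unfold sg
    simp only [Finset.range_zero, Finset.sum_empty, add_zero]
    exact (exists_hour (xx p 0).2.2.2).choose_spec
  | succ n ih =>
    rw [sg_succ, hour_add, ← ih, xx_succ]
    rfl

def ww (p : Mfd) (n : ℕ) : ℂ × ℂ := (ze (xx p n).2.1, ze (xx p n).2.2.1)

lemma sec1 (p : Mfd) (n : ℕ) : (xx p n).2.1 = sec (ww p n).1 := by
  have h : (xx p n).2.1 = sec (xi1 (F^[n] p)) := by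
    unfold xx
    rw [Function.iterate_succ_apply']
    rfl
  show (xx p n).2.1 = sec (ze (xx p n).2.1)
  rw [h, ze_sec ((norm_xi1_le _).trans (by norm_num))]

lemma sec2 (p : Mfd) (n : ℕ) : (xx p n).2.2.1 = sec (ww p n).2 := by
  have h : (xx p n).2.2.1 = sec (xi2 (F^[n] p)) := by
    unfold xx
    rw [Function.iterate_succ_apply']
    rfl
  show (xx p n).2.2.1 = sec (ze (xx p n).2.2.1)
  rw [h, ze_sec ((norm_xi2_le _).trans (by norm_num))]

lemma ww_succ (p : Mfd) (n : ℕ) : ww p (n + 1) = (xi1 (xx p n), xi2 (xx p n)) := by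
  show (ze (xx p (n + 1)).2.1, ze (xx p (n + 1)).2.2.1) = _
  rw [xx_succ]
  show (ze (sec (xi1 (xx p n))), ze (sec (xi2 (xx p n)))) = _
  rw [ze_sec ((norm_xi1_le _).trans (by norm_num)), ze_sec ((norm_xi2_le _).trans (by norm_num))]

def ee (p : Mfd) (n : ℕ) : ℂ := kickE (ww p n)

def kk1 (p : Mfd) (n : ℕ) : ℝ := k1 ((xx p n).2.2.2 : ℂ) (xx p n).1
def kk2 (p : Mfd) (n : ℕ) : ℝ := k2 ((xx p n).2.2.2 : ℂ) (xx p n).1

lemma fst_succ (p : Mfd) (n : ℕ) :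
    (xx p (n + 1)).1 = UU (kk1 p n) (kk2 p n) (ee p n) (xx p n).1 := by
  rw [xx_succ]
  rfl

lemma kk1_nonneg (p : Mfd) (n : ℕ) : 0 ≤ kk1 p n := by
  unfold kk1 k1
  have h1 := sz_nonneg ((xx p n).2.2.2 : ℂ)
  have h2 := sz_le_one ((xx p n).2.2.2 : ℂ)
  have h3 := KK_nonneg (he (xx p n).1)
  nlinarith

lemma kk2_nonneg (p : Mfd) (n : ℕ) : 0 ≤ kk2 p n := by
  unfold kk2 k2
  have h1 := sz_nonneg ((xx p n).2.2.2 : ℂ)
  have h2 := sz_le_one ((xx p n).2.2.2 : ℂ)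
  have h3 := KK_nonneg (he (xx p n).1)
  have h4 := KK_le_one (he (xx p n).1)
  nlinarith

lemma kk_small {p : Mfd} {n : ℕ} (h : (xx p n).1 ≠ north) (hu : ‖uc (xx p n).1‖ ≤ 4) :
    kk1 p n = 1 - sz ((xx p n).2.2.2 : ℂ) ∧ kk2 p n = 1 := by
  have h1 : KK (he (xx p n).1) = 0 := by
    rw [← jj_uc h]; exact KK_jj_of_le hu
  unfold kk1 kk2 k1 k2
  rw [h1]
  constructor <;> ring

lemma kk_large {p : Mfd} {n : ℕ} (h : (xx p n).1 ≠ north) (hu : 16 ≤ ‖uc (xx p n).1‖) :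
    kk1 p n = 1 ∧ kk2 p n = 1 - sz ((xx p n).2.2.2 : ℂ) := by
  have h1 : KK (he (xx p n).1) = 1 := by
    rw [← jj_uc h]; exact KK_jj_of_ge hu
  unfold kk1 kk2 k1 k2
  rw [h1]
  constructor <;> ring

/-- if `k₂ = 0` then the next point is `north` -/
lemma north_of_kk2 {p : Mfd} {n : ℕ} (h : (xx p n).1 ≠ north) (h2 : kk2 p n = 0) :
    (xx p (n + 1)).1 = north := by
  have h3 : sz ((xx p n).2.2.2 : ℂ) * KK (he (xx p n).1) = 1 := by
    unfold kk2 k2 at h2; linarith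
  have h4 := sz_nonneg ((xx p n).2.2.2 : ℂ)
  have h5 := sz_le_one ((xx p n).2.2.2 : ℂ)
  have h6 := KK_nonneg (he (xx p n).1)
  have h7 := KK_le_one (he (xx p n).1)
  have h8 : sz ((xx p n).2.2.2 : ℂ) = 1 := by nlinarith
  have h9 : KK (he (xx p n).1) = 1 := by nlinarith
  have h10 : kk1 p n = 1 := by
    unfold kk1 k1; rw [h8, h9]; ring
  have h11 : uc (xx p n).1 ≠ 0 := by
    intro h0
    have := (kk_small h (by rw [h0]; simp)).2
    linarith
  rw [fst_succ, h2, ← jj_uc h]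
  exact UU_jj_top _ (by rw [h10]; norm_num) h11

lemma fst_succ_jj {p : Mfd} {n : ℕ} (h : (xx p n).1 ≠ north) (h2 : kk2 p n ≠ 0) :
    (xx p (n + 1)).1 = jj ((kk1 p n / kk2 p n : ℝ) * uc (xx p n).1 ^ 2 + ee p n) := by
  have h3 : 0 < kk2 p n := lt_of_le_of_ne (kk2_nonneg p n) (Ne.symm h2)
  rw [fst_succ, ← jj_uc h, UU_jj _ _ (kk1_nonneg p n) h3, jj_uc h]

lemma xx_eq_south {p : Mfd} {n : ℕ} (h : (xx p n).1 ≠ north) (hu : uc (xx p n).1 = 0) :
    xx p n = (south, sec (ww p n).1, sec (ww p n).2, (xx p n).2.2.2) := by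
  have h1 : (xx p n).1 = south := by
    rw [← jj_uc h, hu, jj_zero]
  refine Prod.ext h1 (Prod.ext (sec1 p n) (Prod.ext (sec2 p n) rfl))

/-- the abstract orbit attached to `p` -/
def orb (p : Mfd) : XOrb where
  inf n := (xx p n).1 = north
  u n := uc (xx p n).1
  w n := ww p n
  σ n := sg p n
  τ n := tau (xx p n)
  κ n := kk1 p n / kk2 p n
  S n := SZ ((xx p n).2.2.2 : ℂ)
  γ n := gam ((xx p n).2.2.2 : ℂ)
  b w := (cut w.1, cut w.2)
  b_id w hw := by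
    rw [Prod.norm_def] at hw
    rw [cut_of_le ((le_max_left _ _).trans hw), cut_of_le ((le_max_right _ _).trans hw)]
  σ_succ := sg_succ p
  τ_nonneg n := tau_nonneg _
  τ_le_one n := tau_le_one _
  τ_one n h hu := tau_of_one_le (jj_uc h).symm hu
  wait_neg n k h hu h3 h5 hw := by
    have h6 := tau_wait k (ww p n).1 (ww p n).2
      ((norm_fst_le (ww p n)).trans (hw.trans (by norm_num)))
      ((norm_snd_le (ww p n)).trans (hw.trans (by norm_num))) (xx p n).2.2.2 (z_eq p n)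
    rw [← xx_eq_south h hu] at h6
    have h7 := tau_le_one (xx p n)
    have h8 := norm_fst_le (ww p n)
    have h9 := norm_snd_le (ww p n)
    have h10 := norm_nonneg (ww p n).1
    have h11 := norm_nonneg (ww p n).2
    rw [sg_succ]
    by_cases hs : sg p n ≤ 12 * k + 4
    · have := norm_nonneg (ww p n)
      linarith
    · have hs' := le_of_not_ge hs
      have h12 : ‖(ww p n).1‖ ^ 2 ≤ ‖ww p n‖ := by nlinarith
      have h13 : ‖(ww p n).2‖ ^ 2 ≤ ‖ww p n‖ := by nlinarith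
      have h14 : (sg p n - (12 * k + 5)) ^ 2 ≤ -(sg p n - (12 * k + 5)) := by nlinarith
      linarith
  wait_pos n k h hu h3 h5 hw := by
    have h6 := tau_wait k (ww p n).1 (ww p n).2
      ((norm_fst_le (ww p n)).trans (hw.trans (by norm_num)))
      ((norm_snd_le (ww p n)).trans (hw.trans (by norm_num))) (xx p n).2.2.2 (z_eq p n)
    rw [← xx_eq_south h hu] at h6
    have h8 := norm_fst_le (ww p n)
    have h9 := norm_snd_le (ww p n)
    have h10 := norm_nonneg (ww p n).1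
    have h11 := norm_nonneg (ww p n).2
    rw [sg_succ]
    have h12 : ‖(ww p n).1‖ ^ 2 ≤ ‖ww p n‖ := by nlinarith
    have h13 : ‖(ww p n).2‖ ^ 2 ≤ ‖ww p n‖ := by nlinarith
    have h14 : (sg p n - (12 * k + 5)) ^ 2 ≤ ‖ww p n‖ := by nlinarith [norm_nonneg (ww p n)]
    linarith
  inf_succ n h := by
    show (xx p (n + 1)).1 = north
    rw [fst_succ, show (xx p n).1 = north from h]
    refine UU_north _ ?_
    unfold kk1 k1
    rw [show (xx p n).1 = north from h, KK_north]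
    linarith
  not_inf n h hu := by
    show ¬ (xx p (n + 1)).1 = north
    rw [fst_succ_jj h (by rw [(kk_small h hu).2]; norm_num)]
    exact jj_ne_north _
  u_succ n h h' := by
    have h2 : kk2 p n ≠ 0 := fun h0 => h' (north_of_kk2 h h0)
    rw [fst_succ_jj h h2, uc_jj]
    rfl
  κ_nonneg n := div_nonneg (kk1_nonneg p n) (kk2_nonneg p n)
  κ_le_one n h hu := by
    rw [(kk_small h hu).1, (kk_small h hu).2, div_one]
    linarith [sz_nonneg ((xx p n).2.2.2 : ℂ)]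
  one_le_κ n h h' hu := by
    have h2 : kk2 p n ≠ 0 := fun h0 => h' (north_of_kk2 h h0)
    have h3 : 0 < kk2 p n := lt_of_le_of_ne (kk2_nonneg p n) (Ne.symm h2)
    rw [le_div_iff₀ h3, (kk_large h hu).1, (kk_large h hu).2]
    linarith [sz_nonneg ((xx p n).2.2.2 : ℂ)]
  κ_one n k h h1 h2 := by
    have h3 : sz ((xx p n).2.2.2 : ℂ) = 0 := by
      rw [z_eq]; exact sz_zero k (by linarith) h2
    have h4 : kk1 p n = 1 := by unfold kk1 k1; rw [h3]; ring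
    have h5 : kk2 p n = 1 := by unfold kk2 k2; rw [h3]; ring
    rw [h4, h5, div_one]
  κ_zero n k h h1 h2 hu := by
    have h3 : sz ((xx p n).2.2.2 : ℂ) = 1 := by
      rw [z_eq]; exact sz_one k h1 (by linarith)
    rw [(kk_small h hu).1, h3]
    simp
  inf_of n k h h1 h2 hu := by
    have h3 : sz ((xx p n).2.2.2 : ℂ) = 1 := by
      rw [z_eq]; exact sz_one k h1 (by linarith)
    exact north_of_kk2 h (by rw [(kk_large h hu).2, h3]; ring)
  w_succ n h := by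
    have h1 : (xx p n).1 = jj (uc (xx p n).1) := (jj_uc h).symm
    have h2 : xi1 (xx p n) = (SZ ((xx p n).2.2.2 : ℂ) : ℂ) * cut (8 * ze (xx p n).2.2.1) +
        (gam ((xx p n).2.2.2 : ℂ) : ℂ) * G (uc (xx p n).1 ^ 2) := by
      unfold xi1
      rw [← GS_jj, ← sqS_jj, ← h1]
    have h3 : xi2 (xx p n) = (SZ ((xx p n).2.2.2 : ℂ) : ℂ) * cut (8 * ze (xx p n).2.1) +
        (gam ((xx p n).2.2.2 : ℂ) : ℂ) * (G ((uc (xx p n).1 ^ 2) ^ 2) / 8) := by
      unfold xi2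
      rw [← GS_jj, ← sqS_jj, ← sqS_jj, ← h1]
    rw [ww_succ, h2, h3]
    rfl
  w_succ_inf n h := by
    have h1 : (xx p n).1 = north := h
    have h2 : xi1 (xx p n) = (SZ ((xx p n).2.2.2 : ℂ) : ℂ) * cut (8 * ze (xx p n).2.2.1) := by
      unfold xi1
      rw [h1, sqS_north, GS_north, mul_zero, add_zero]
    have h3 : xi2 (xx p n) = (SZ ((xx p n).2.2.2 : ℂ) : ℂ) * cut (8 * ze (xx p n).2.1) := by
      unfold xi2
      rw [h1, sqS_north, sqS_north, GS_north, zero_div, mul_zero, add_zero]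
    rw [ww_succ, h2, h3]
    rfl
  S_one n k h1 h2 := by rw [z_eq]; exact SZ_one k h1 h2
  S_zero n k h1 h2 := by
    rw [z_eq]
    exact SZ_zero (k + 1) (by push_cast; linarith) (by push_cast; linarith)
  γ_nonneg n := gam_nonneg _
  γ_le_one n := gam_le_one _
  γ_zero n k h1 h2 := by
    rw [z_eq]
    by_cases h3 : sg p n ≤ 12 * k + 8
    · exact gam_zero k h1 h3
    · have := le_of_not_ge h3
      exact gam_reset (k + 1) (by push_cast; linarith) (by push_cast; linarith)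
  γ_add n k h1 h2 h3 := by
    rw [z_eq, z_eq, h3, gam_first k h1 h2, gam_second k (by linarith) (by linarith),
      add_sub_cancel_right]
    ring

end XO

/-- Every orbit of `F` along which the clock is unbounded is eventually in the rotation circle. -/
theorem eventually_circ (p : Mfd)
    (hun : ∀ C : ℝ, ∃ n : ℕ, C ≤ ∑ k ∈ Finset.range n, tau (F^[k] p)) :
    ∃ n₀ : ℕ, ∀ n, n₀ ≤ n → F^[n] p ∈ Circ := by
  have h1 : ∀ C : ℝ, ∃ n, C ≤ (XO.orb p).σ n := by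
    intro C
    obtain ⟨n, hn⟩ := hun (C + 1 - (exists_hour (XO.xx p 0).2.2.2).choose)
    refine ⟨n, ?_⟩
    show C ≤ XO.sg p n
    unfold XO.sg
    have h2 : ∑ k ∈ Finset.range n, tau (F^[k] p) ≤
        ∑ k ∈ Finset.range (n + 1), tau (F^[k] p) := by
      rw [Finset.sum_range_succ]
      linarith [tau_nonneg (F^[n] p)]
    rw [Finset.sum_range_succ'] at h2
    have h3 := tau_le_one (F^[0] p)
    have h4 : ∑ k ∈ Finset.range n, tau (XO.xx p k) = ∑ k ∈ Finset.range n, tau (F^[k + 1] p) := rfl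
    rw [h4]
    linarith
  obtain ⟨n₀, hn₀⟩ := (XO.orb p).main h1
  refine ⟨n₀ + 1, fun n hn => ?_⟩
  obtain ⟨m, rfl⟩ : ∃ m, n = m + 1 := ⟨n - 1, by omega⟩
  obtain ⟨h2, h3⟩ := hn₀ m (by omega)
  have h4 : XO.ww p m = 0 := h3
  have h5 : (F^[m + 1] p).2.1 = sec (XO.ww p m).1 := XO.sec1 p m
  have h6 : (F^[m + 1] p).2.2.1 = sec (XO.ww p m).2 := XO.sec2 p m
  refine ⟨h2, ?_, ?_⟩
  · rw [h5, h4]; exact sec_zero
  · rw [h6, h4]; exact sec_zero

end Crest.Agent.R123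
end
end

-- ▼ part R123/XSmoothM

set_option autoImplicit false
set_option maxHeartbeats 800000

open scoped Manifold ContDiff

namespace Crest.Agent.R123

/-- product model with corners of `Mfd` -/
noncomputable abbrev IM := (𝓡 2).prod ((𝓡 2).prod ((𝓡 2).prod (𝓡 1)))

namespace SmoothAux

open Real (smoothTransition)

lemma cdiv {E : Type*} [NormedAddCommGroup E] [NormedSpace ℝ E] {f : E → ℂ} {g : E → ℝ} {x : E}
    (hf : ContDiffAt ℝ 1 f x) (hg : ContDiffAt ℝ 1 g x) (h : g x ≠ 0) :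
    ContDiffAt ℝ 1 (fun y => f y / ((g y : ℝ) : ℂ)) x := by
  have h1 : ContDiffAt ℝ 1 (fun y => ((g y : ℝ) : ℂ)) x :=
    (Complex.ofRealCLM.contDiff.contDiffAt).comp x hg
  have h2 : ContDiffAt ℝ 1 (fun y => ((g y : ℝ) : ℂ)⁻¹) x := h1.inv (by exact_mod_cast h)
  have h3 := hf.mul h2
  simpa only [div_eq_mul_inv] using h3

lemma contDiff_cut : ContDiff ℝ 1 cut := by
  unfold cut
  apply ContDiff.mul _ contDiff_id
  apply Complex.ofRealCLM.contDiff.comp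
  apply contDiff_const.sub
  apply (smoothTransition.contDiff (n := 1)).comp
  apply ContDiff.div_const
  apply ContDiff.sub _ contDiff_const
  exact contDiff_const.mul (contDiff_norm_sq ℝ)

/-! ### coordinates on `S²` -/

lemma contMDiff_ze : ContMDiff (𝓡 2) 𝓘(ℝ, ℂ) 1 ze := by
  have h : ContDiff ℝ 1 (fun v : E3 => v.fst) := by
    have := ((ContinuousLinearMap.fst ℝ ℂ ℝ).comp
      (WithLp.prodContinuousLinearEquiv 2 ℝ ℂ ℝ : E3 →L[ℝ] ℂ × ℝ)).contDiff (n := 1)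
    exact this
  exact h.comp_contMDiff contMDiff_coe_sphere

lemma contMDiff_he : ContMDiff (𝓡 2) 𝓘(ℝ, ℝ) 1 he := by
  have h : ContDiff ℝ 1 (fun v : E3 => v.snd) := by
    have := ((ContinuousLinearMap.snd ℝ ℂ ℝ).comp
      (WithLp.prodContinuousLinearEquiv 2 ℝ ℂ ℝ : E3 →L[ℝ] ℂ × ℝ)).contDiff (n := 1)
    exact this
  exact h.comp_contMDiff contMDiff_coe_sphere

section gen

variable {E : Type*} [NormedAddCommGroup E] [NormedSpace ℝ E] {H : Type*} [TopologicalSpace H]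
  {I : ModelWithCorners ℝ E H} {M : Type*} [TopologicalSpace M] [ChartedSpace H M]
  [IsManifold I 1 M]

/-- a map into `S²` is C¹ if both coordinates are -/
lemma contMDiff_into_S2 {f : M → S2} (h1 : ContMDiff I 𝓘(ℝ, ℂ) 1 (fun p => ze (f p)))
    (h2 : ContMDiff I 𝓘(ℝ, ℝ) 1 (fun p => he (f p))) : ContMDiff I (𝓡 2) 1 f := by
  have h3 : ContDiff ℝ 1 (fun q : ℂ × ℝ => (WithLp.toLp 2 q : E3)) :=
    ((WithLp.prodContinuousLinearEquiv 2 ℝ ℂ ℝ).symm : ℂ × ℝ →L[ℝ] E3).contDiff (n := 1)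
  have h4 : ContMDiff I 𝓘(ℝ, E3) 1 (fun p => (f p : E3)) :=
    h3.comp_contMDiff (h1.prodMk_space h2)
  exact h4.codRestrict_sphere (fun p => (f p).2)

lemma contMDiff_into_S1 {f : M → S1} (h1 : ContMDiff I 𝓘(ℝ, ℂ) 1 (fun p => (f p : ℂ))) :
    ContMDiff I (𝓡 1) 1 f :=
  h1.codRestrict_sphere (fun p => (f p).2)

end gen

lemma contMDiff_sqS : ContMDiff (𝓡 2) (𝓡 2) 1 sqS := by
  have hpair : ContMDiff (𝓡 2) 𝓘(ℝ, ℂ × ℝ) 1 (fun x : S2 => (ze x, he x)) :=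
    contMDiff_ze.prodMk_space contMDiff_he
  have hden : ContDiff ℝ 1 (fun q : ℂ × ℝ => 1 + q.2 ^ 2) := contDiff_const.add (contDiff_snd.pow 2)
  have hpos : ∀ q : ℂ × ℝ, (1 + q.2 ^ 2 : ℝ) ≠ 0 := fun q => by positivity
  apply contMDiff_into_S2
  · have h : ContDiff ℝ 1 (fun q : ℂ × ℝ => (q.1) ^ 2 / ((1 + q.2 ^ 2 : ℝ) : ℂ)) := by
      rw [contDiff_iff_contDiffAt]
      intro q
      exact cdiv (contDiff_fst.pow 2).contDiffAt hden.contDiffAt (hpos q)
    exact h.comp_contMDiff hpair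
  · have h : ContDiff ℝ 1 (fun q : ℂ × ℝ => 2 * q.2 / (1 + q.2 ^ 2)) := by
      apply ContDiff.div (contDiff_const.mul contDiff_snd) hden hpos
    exact h.comp_contMDiff hpair

lemma contMDiff_GS : ContMDiff (𝓡 2) 𝓘(ℝ, ℂ) 1 GS := by
  intro x
  by_cases hx : he x = 1
  · -- locally zero
    have hev : ∀ᶠ y in nhds x, GS y = 0 := by
      have hc : ContinuousAt he x := contMDiff_he.continuous.continuousAt
      have h1 : ∀ᶠ y in nhds x, 1 - 1 / 100000 < he y := by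
        apply hc.eventually (lt_mem_nhds (by rw [hx]; norm_num))
      filter_upwards [h1] with y hy
      unfold GS
      by_cases hy1 : he y = 1
      · rw [hy1]; simp only [sub_self, Complex.ofReal_zero, div_zero]
        exact G_zero_of_le_one (by simp)
      · apply G_zero_of_ge
        have hlt : he y < 1 := lt_of_le_of_ne (by nlinarith [ze_he y, sq_nonneg ‖ze y‖, sq_nonneg (he y - 1)]) hy1
        have hpos : 0 < 1 - he y := by linarith
        rw [norm_div, Complex.norm_real, Real.norm_of_nonneg hpos.le, le_div_iff₀ hpos]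
        have h2 : ‖ze y‖ ^ 2 = (1 - he y) * (1 + he y) := by nlinarith [ze_he y]
        apply le_of_sq_le_sq _ (norm_nonneg _)
        rw [h2]
        nlinarith
    have : ContMDiffAt (𝓡 2) 𝓘(ℝ, ℂ) 1 (fun _ : S2 => (0 : ℂ)) x := contMDiffAt_const
    exact this.congr_of_eventuallyEq hev
  · have hne : 1 - he x ≠ 0 := sub_ne_zero.2 (Ne.symm hx)
    have h : ContDiffAt ℝ 1 (fun q : ℂ × ℝ => G (q.1 / ((1 - q.2 : ℝ) : ℂ))) (ze x, he x) := by
      have h1 : ContDiffAt ℝ 1 (fun q : ℂ × ℝ => q.1 / ((1 - q.2 : ℝ) : ℂ)) (ze x, he x) :=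
        cdiv contDiffAt_fst (contDiff_const.sub contDiff_snd).contDiffAt hne
      exact ContDiffAt.comp _ (contDiff_G.contDiffAt) h1
    exact ContDiffAt.comp_contMDiffAt (f := fun x : S2 => (ze x, he x)) h
      (contMDiff_ze.prodMk_space contMDiff_he).contMDiffAt

/-! ### the sphere formula -/

lemma KK_of_zero {h : ℝ} (h0 : KK h ≠ 0) : 3855 / 4369 < h := by
  by_contra hlt
  push Not at hlt
  exact h0 (smoothTransition.zero_of_nonpos (by linarith))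

lemma KK_one : KK 1 = 1 := smoothTransition.one_of_one_le (by norm_num)


/-- norm identity -/
lemma UX_sq (k₁ k₂ : ℝ) (e a : ℂ) (b : ℝ) (h : ‖a‖ ^ 2 + b ^ 2 = 1) :
    ‖UX k₁ k₂ e a b‖ ^ 2 = UY k₁ k₂ e a b * UZ k₂ b := by
  have ha : a.re * a.re + a.im * a.im = 1 - b ^ 2 := by
    rw [Complex.sq_norm, Complex.normSq_apply] at h; linarith
  rw [Complex.sq_norm, Complex.normSq_apply]
  unfold UX UY UZ
  rw [Complex.sq_norm, Complex.normSq_apply]
  simp only [Complex.add_re, Complex.add_im, Complex.mul_re, Complex.mul_im, Complex.ofReal_re,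
    Complex.ofReal_im, pow_two, Complex.conj_re, Complex.conj_im]
  have h2re : (a / 2).re = a.re / 2 := by simp
  have h2im : (a / 2).im = a.im / 2 := by simp
  rw [h2re, h2im]
  have ha2 : (a.re * a.re + a.im * a.im) ^ 2 = (1 - b ^ 2) ^ 2 := by rw [ha]
  linear_combination (k₁ ^ 2 * k₂ ^ 2 / 16) * ha2

lemma UY_nonneg (k₁ k₂ : ℝ) (e a : ℂ) (b : ℝ) (h : ‖a‖ ^ 2 + b ^ 2 = 1)
    (h1 : b = 1 → k₁ = 1) (h2 : k₂ = 0 → k₁ = 1 ∧ -1 < b) :
    0 < UY k₁ k₂ e a b + UZ k₂ b := by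
  by_cases hZ : UZ k₂ b = 0
  · rw [hZ, add_zero]
    unfold UZ at hZ
    have : k₂ = 0 ∨ b = 1 := by
      rcases mul_eq_zero.1 hZ with h' | h'
      · left; exact pow_eq_zero_iff (two_ne_zero) |>.1 h'
      · right
        have := pow_eq_zero_iff (two_ne_zero) |>.1 h'
        linarith
    rcases this with hk | hb
    · obtain ⟨hk1, hb⟩ := h2 hk
      unfold UY
      rw [hk, hk1]
      have : 0 < 1 + b := by linarith
      simp only [mul_zero, zero_mul, add_zero, ne_eq, OfNat.ofNat_ne_zero, not_false_eq_true, zero_pow]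
      positivity
    · have hk1 := h1 hb
      have ha : a = 0 := by
        rw [hb] at h
        have : ‖a‖ ^ 2 = 0 := by linarith
        simpa using this
      unfold UY
      rw [ha, hb, hk1]
      norm_num
  · have hZ0 : 0 ≤ UZ k₂ b := by unfold UZ; positivity
    have hZp : 0 < UZ k₂ b := lt_of_le_of_ne hZ0 (Ne.symm hZ)
    have hY : 0 ≤ UY k₁ k₂ e a b := by
      have := UX_sq k₁ k₂ e a b h
      by_contra hlt
      push Not at hlt
      nlinarith [sq_nonneg ‖UX k₁ k₂ e a b‖, mul_neg_of_neg_of_pos hlt hZp]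
    linarith

lemma UU_cond (k₁ k₂ : ℝ) (e a : ℂ) (b : ℝ) (h : ‖a‖ ^ 2 + b ^ 2 = 1)
    (hpos : 0 < UY k₁ k₂ e a b + UZ k₂ b) :
    ‖2 * UX k₁ k₂ e a b / ((UY k₁ k₂ e a b + UZ k₂ b : ℝ) : ℂ)‖ ^ 2 +
      ((UY k₁ k₂ e a b - UZ k₂ b) / (UY k₁ k₂ e a b + UZ k₂ b)) ^ 2 = 1 := by
  have := UX_sq k₁ k₂ e a b h
  rw [norm_div, Complex.norm_real, Real.norm_of_nonneg hpos.le, norm_mul, Complex.norm_ofNat,
    div_pow, mul_pow, this, div_pow, ← add_div, div_eq_one_iff_eq (by positivity)]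
  ring

/-! ### smoothness of the ingredients -/

section ingr

variable {E : Type*} [NormedAddCommGroup E] [NormedSpace ℝ E]

lemma cof {f : E → ℝ} (hf : ContDiff ℝ 1 f) : ContDiff ℝ 1 (fun x => ((f x : ℝ) : ℂ)) :=
  Complex.ofRealCLM.contDiff.comp hf

lemma cre {f : E → ℂ} (hf : ContDiff ℝ 1 f) : ContDiff ℝ 1 (fun x => (f x).re) :=
  Complex.reCLM.contDiff.comp hf

lemma cconj {f : E → ℂ} (hf : ContDiff ℝ 1 f) : ContDiff ℝ 1 (fun x => (starRingEnd ℂ) (f x)) :=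
  Complex.conjCLE.contDiff.comp hf

lemma cst {f : E → ℝ} (hf : ContDiff ℝ 1 f) : ContDiff ℝ 1 (fun x => smoothTransition (f x)) :=
  smoothTransition.contDiff.comp hf

lemma cnsq {f : E → ℂ} (hf : ContDiff ℝ 1 f) : ContDiff ℝ 1 (fun x => ‖f x‖ ^ 2) :=
  hf.norm_sq ℝ

lemma c_rho {f : E → ℂ} (hf : ContDiff ℝ 1 f) : ContDiff ℝ 1 (fun x => rho (f x)) :=
  cre (hf.mul contDiff_const)

lemma c_SZ {f : E → ℂ} (hf : ContDiff ℝ 1 f) : ContDiff ℝ 1 (fun x => SZ (f x)) :=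
  cst (contDiff_const.add (contDiff_const.mul (c_rho hf)))

lemma c_sz {f : E → ℂ} (hf : ContDiff ℝ 1 f) : ContDiff ℝ 1 (fun x => sz (f x)) :=
  cst ((contDiff_const.mul (c_rho hf)).sub contDiff_const)

lemma c_gam {f : E → ℂ} (hf : ContDiff ℝ 1 f) : ContDiff ℝ 1 (fun x => gam (f x)) :=
  (c_SZ hf).mul (contDiff_const.sub (c_SZ (hf.mul contDiff_const)))

lemma c_psi {f : E → ℂ} (hf : ContDiff ℝ 1 f) : ContDiff ℝ 1 (fun x => psi (f x)) :=
  (contDiff_const.add (cre (hf.mul contDiff_const))).div_const 2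

lemma c_KK {f : E → ℝ} (hf : ContDiff ℝ 1 f) : ContDiff ℝ 1 (fun x => KK (f x)) :=
  cst (((contDiff_const.mul hf).sub contDiff_const).div_const 480)

lemma c_hour {f : E → ℝ} (hf : ContDiff ℝ 1 f) : ContDiff ℝ 1 (fun x => hour (f x)) :=
  Complex.contDiff_exp.comp ((cof (contDiff_const.mul hf)).mul contDiff_const)

lemma c_UX {k₁ k₂ b : E → ℝ} {e a : E → ℂ} (h1 : ContDiff ℝ 1 k₁) (h2 : ContDiff ℝ 1 k₂)
    (h3 : ContDiff ℝ 1 b) (h4 : ContDiff ℝ 1 e) (h5 : ContDiff ℝ 1 a) :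
    ContDiff ℝ 1 (fun x => UX (k₁ x) (k₂ x) (e x) (a x) (b x)) :=
  ((cof (h1.mul h2)).mul ((h5.div_const 2).pow 2)).add
    (h4.mul (cof ((h2.pow 2).mul (((contDiff_const.sub h3).div_const 2).pow 2))))

lemma c_UY {k₁ k₂ b : E → ℝ} {e a : E → ℂ} (h1 : ContDiff ℝ 1 k₁) (h2 : ContDiff ℝ 1 k₂)
    (h3 : ContDiff ℝ 1 b) (h4 : ContDiff ℝ 1 e) (h5 : ContDiff ℝ 1 a) :
    ContDiff ℝ 1 (fun x => UY (k₁ x) (k₂ x) (e x) (a x) (b x)) :=
  (((h1.pow 2).mul (((contDiff_const.add h3).div_const 2).pow 2)).add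
    (((contDiff_const.mul h1).mul h2).mul (cre (((h5.div_const 2).pow 2).mul (cconj h4))))).add
    ((cnsq h4).mul ((h2.pow 2).mul (((contDiff_const.sub h3).div_const 2).pow 2)))

lemma c_UZ {k₂ b : E → ℝ} (h2 : ContDiff ℝ 1 k₂)
    (h3 : ContDiff ℝ 1 b) :
    ContDiff ℝ 1 (fun x => UZ (k₂ x) (b x)) :=
  (h2.pow 2).mul (((contDiff_const.sub h3).div_const 2).pow 2)

end ingr

/-- all coordinates -/
noncomputable abbrev V := (ℂ × ℝ) × (ℂ × ℝ) × (ℂ × ℝ) × ℂ × (ℂ × ℂ)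

noncomputable def Phi (p : Mfd) : V :=
  ((ze p.1, he p.1), (ze p.2.1, he p.2.1), (ze p.2.2.1, he p.2.2.1), (p.2.2.2 : ℂ),
    (GS (sqS p.1), GS (sqS (sqS p.1))))

lemma contMDiff_Phi : ContMDiff IM 𝓘(ℝ, V) 1 Phi := by
  have p1 : ContMDiff IM (𝓡 2) 1 (fun p : Mfd => p.1) := contMDiff_fst
  have p2 : ContMDiff IM (𝓡 2) 1 (fun p : Mfd => p.2.1) := contMDiff_fst.comp contMDiff_snd
  have p3 : ContMDiff IM (𝓡 2) 1 (fun p : Mfd => p.2.2.1) :=
    contMDiff_fst.comp (contMDiff_snd.comp contMDiff_snd)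
  have p4 : ContMDiff IM (𝓡 1) 1 (fun p : Mfd => p.2.2.2) :=
    contMDiff_snd.comp (contMDiff_snd.comp contMDiff_snd)
  have z4 : ContMDiff IM 𝓘(ℝ, ℂ) 1 (fun p : Mfd => (p.2.2.2 : ℂ)) := contMDiff_coe_sphere.comp p4
  exact ((contMDiff_ze.comp p1).prodMk_space (contMDiff_he.comp p1)).prodMk_space
    (((contMDiff_ze.comp p2).prodMk_space (contMDiff_he.comp p2)).prodMk_space
    (((contMDiff_ze.comp p3).prodMk_space (contMDiff_he.comp p3)).prodMk_space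
    (z4.prodMk_space ((contMDiff_GS.comp (contMDiff_sqS.comp p1)).prodMk_space
      (contMDiff_GS.comp (contMDiff_sqS.comp (contMDiff_sqS.comp p1)))))))

lemma via_Phi {F' : Type*} [NormedAddCommGroup F'] [NormedSpace ℝ F'] {g : V → F'} {f : Mfd → F'}
    (hfg : ∀ p, f p = g (Phi p)) (hg : ∀ p, ContDiffAt ℝ 1 g (Phi p)) :
    ContMDiff IM 𝓘(ℝ, F') 1 f := by
  intro p
  have : f = fun p => g (Phi p) := funext hfg
  rw [this]
  exact ContDiffAt.comp_contMDiffAt (hg p) contMDiff_Phi.contMDiffAt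

/-! ### first component -/

lemma k_pos (p : Mfd) : 0 < UY (k1 (p.2.2.2 : ℂ) p.1) (k2 (p.2.2.2 : ℂ) p.1)
    (kickE (ze p.2.1, ze p.2.2.1)) (ze p.1) (he p.1) + UZ (k2 (p.2.2.2 : ℂ) p.1) (he p.1) := by
  apply UY_nonneg _ _ _ _ _ (ze_he p.1)
  · intro hb
    unfold k1
    rw [hb, KK_one]; ring
  · intro hk
    unfold k2 at hk
    have h1 : sz (p.2.2.2 : ℂ) * KK (he p.1) = 1 := by linarith
    have hK1 : KK (he p.1) ≤ 1 := smoothTransition.le_one _
    have hs1 : sz (p.2.2.2 : ℂ) ≤ 1 := smoothTransition.le_one _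
    have hK0 : 0 ≤ KK (he p.1) := smoothTransition.nonneg _
    have hs0 : 0 ≤ sz (p.2.2.2 : ℂ) := smoothTransition.nonneg _
    constructor
    · unfold k1
      have : sz (p.2.2.2 : ℂ) = 1 := by nlinarith
      linarith
    · have : KK (he p.1) ≠ 0 := by
        intro h0; rw [h0] at h1; simp at h1
      have := KK_of_zero this
      linarith

/-- coordinate functions -/
noncomputable def K1 (v : V) : ℝ := 1 - sz v.2.2.2.1 + sz v.2.2.2.1 * KK v.1.2
noncomputable def K2 (v : V) : ℝ := 1 - sz v.2.2.2.1 * KK v.1.2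
noncomputable def EV (v : V) : ℂ := kickE (v.2.1.1, v.2.2.1.1)
noncomputable def XX (v : V) : ℂ := UX (K1 v) (K2 v) (EV v) v.1.1 v.1.2
noncomputable def YY (v : V) : ℝ := UY (K1 v) (K2 v) (EV v) v.1.1 v.1.2
noncomputable def ZZ (v : V) : ℝ := UZ (K2 v) v.1.2

lemma c_fst1 : ContDiff ℝ 1 (fun v : V => v.1.1) := contDiff_fst.comp contDiff_fst
lemma c_snd1 : ContDiff ℝ 1 (fun v : V => v.1.2) := contDiff_snd.comp contDiff_fst
lemma c_w1 : ContDiff ℝ 1 (fun v : V => v.2.1.1) :=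
  contDiff_fst.comp (contDiff_fst.comp contDiff_snd)
lemma c_w2 : ContDiff ℝ 1 (fun v : V => v.2.2.1.1) :=
  contDiff_fst.comp (contDiff_fst.comp (contDiff_snd.comp contDiff_snd))
lemma c_z : ContDiff ℝ 1 (fun v : V => v.2.2.2.1) :=
  contDiff_fst.comp (contDiff_snd.comp (contDiff_snd.comp contDiff_snd))
lemma c_w12 : ContDiff ℝ 1 (fun v : V => (v.2.1.1, v.2.2.1.1)) := c_w1.prodMk c_w2

lemma EV_eq : EV = kickE ∘ (fun v : V => (v.2.1.1, v.2.2.1.1)) := by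
  funext v
  simp only [EV, Function.comp]

lemma c_EV : ContDiff ℝ 1 EV := by
  rw [EV_eq]
  exact ContDiff.comp (contDiff_kickE (n := 1)) c_w12

lemma c_K2 : ContDiff ℝ 1 K2 := by
  unfold K2
  exact contDiff_const.sub ((c_sz c_z).mul (c_KK c_snd1))

lemma c_K1 : ContDiff ℝ 1 K1 := by
  unfold K1
  exact (contDiff_const.sub (c_sz c_z)).add ((c_sz c_z).mul (c_KK c_snd1))

lemma cXX : ContDiff ℝ 1 XX := by
  unfold XX
  exact c_UX c_K1 c_K2 c_snd1 c_EV c_fst1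

lemma cYY : ContDiff ℝ 1 YY := by
  unfold YY
  exact c_UY c_K1 c_K2 c_snd1 c_EV c_fst1

lemma cZZ : ContDiff ℝ 1 ZZ := by
  unfold ZZ
  exact c_UZ c_K2 c_snd1

lemma cXYZ : ContDiff ℝ 1 XX ∧ ContDiff ℝ 1 YY ∧ ContDiff ℝ 1 ZZ := ⟨cXX, cYY, cZZ⟩

lemma XX_Phi (p : Mfd) : XX (Phi p) = UX (k1 (p.2.2.2 : ℂ) p.1) (k2 (p.2.2.2 : ℂ) p.1)
    (kickE (ze p.2.1, ze p.2.2.1)) (ze p.1) (he p.1) := rfl

lemma YY_Phi (p : Mfd) : YY (Phi p) = UY (k1 (p.2.2.2 : ℂ) p.1) (k2 (p.2.2.2 : ℂ) p.1)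
    (kickE (ze p.2.1, ze p.2.2.1)) (ze p.1) (he p.1) := rfl

lemma ZZ_Phi (p : Mfd) : ZZ (Phi p) = UZ (k2 (p.2.2.2 : ℂ) p.1) (he p.1) := rfl

lemma YZ_pos (p : Mfd) : YY (Phi p) + ZZ (Phi p) ≠ 0 := by
  rw [YY_Phi, ZZ_Phi]
  exact (k_pos p).ne'

lemma F_fst (p : Mfd) : (F p).1 = UU (k1 (p.2.2.2 : ℂ) p.1) (k2 (p.2.2.2 : ℂ) p.1)
    (kickE (ze p.2.1, ze p.2.2.1)) p.1 := rfl

lemma ze_F (p : Mfd) : ze (F p).1 = 2 * XX (Phi p) / ((YY (Phi p) + ZZ (Phi p) : ℝ) : ℂ) := by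
  rw [F_fst, XX_Phi, YY_Phi, ZZ_Phi]
  unfold UU toS2
  rw [dif_pos (UU_cond _ _ _ _ _ (ze_he p.1) (k_pos p)), ze_mkS2]

lemma he_F (p : Mfd) : he (F p).1 = (YY (Phi p) - ZZ (Phi p)) / (YY (Phi p) + ZZ (Phi p)) := by
  rw [F_fst, YY_Phi, ZZ_Phi]
  unfold UU toS2
  rw [dif_pos (UU_cond _ _ _ _ _ (ze_he p.1) (k_pos p)), he_mkS2]

lemma smooth1 : ContMDiff IM (𝓡 2) 1 (fun p : Mfd => (F p).1) := by
  obtain ⟨cX, cY, cZ⟩ := cXYZ
  apply contMDiff_into_S2
  · exact via_Phi (g := fun v : V => 2 * XX v / ((YY v + ZZ v : ℝ) : ℂ)) ze_F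
      (fun p => cdiv (contDiff_const.mul cX).contDiffAt (cY.add cZ).contDiffAt (YZ_pos p))
  · exact via_Phi (g := fun v : V => (YY v - ZZ v) / (YY v + ZZ v)) he_F
      (fun p => (cY.sub cZ).contDiffAt.div (cY.add cZ).contDiffAt (YZ_pos p))

/-! ### the sections -/

lemma smooth_sec {ξ : Mfd → ℂ} (hξ : ContMDiff IM 𝓘(ℝ, ℂ) 1 ξ) (hn : ∀ p, ‖ξ p‖ ≤ 3 / 8) :
    ContMDiff IM (𝓡 2) 1 (fun p => sec (ξ p)) := by
  apply contMDiff_into_S2
  · have : (fun p => ze (sec (ξ p))) = ξ := funext fun p => ze_sec (by linarith [hn p])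
    rw [this]; exact hξ
  · have : (fun p => he (sec (ξ p))) = fun p => -Real.sqrt (1 - ‖ξ p‖ ^ 2) :=
      funext fun p => he_sec (by linarith [hn p])
    rw [this]
    intro p
    have h1 : ContDiffAt ℝ 1 (fun z : ℂ => -Real.sqrt (1 - ‖z‖ ^ 2)) (ξ p) := by
      apply ContDiffAt.neg
      apply ContDiffAt.sqrt
      · exact (contDiff_const.sub (cnsq contDiff_id)).contDiffAt
      · have := hn p
        have h0 := norm_nonneg (ξ p)
        nlinarith
    exact ContDiffAt.comp_contMDiffAt (g := fun z : ℂ => -Real.sqrt (1 - ‖z‖ ^ 2)) h1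
      hξ.contMDiffAt

lemma smooth2 : ContMDiff IM (𝓡 2) 1 (fun p : Mfd => sec (xi1 p)) := by
  apply smooth_sec _ norm_xi1_le
  have cw2 : ContDiff ℝ 1 (fun v : V => v.2.2.1.1) :=
    contDiff_fst.comp (contDiff_fst.comp (contDiff_snd.comp contDiff_snd))
  have cz : ContDiff ℝ 1 (fun v : V => v.2.2.2.1) :=
    contDiff_fst.comp (contDiff_snd.comp (contDiff_snd.comp contDiff_snd))
  have cg : ContDiff ℝ 1 (fun v : V => v.2.2.2.2.1) :=
    contDiff_fst.comp (contDiff_snd.comp (contDiff_snd.comp (contDiff_snd.comp contDiff_snd)))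
  have h : ContDiff ℝ 1 (fun v : V => (SZ v.2.2.2.1 : ℂ) * cut (8 * v.2.2.1.1) +
      (gam v.2.2.2.1 : ℂ) * v.2.2.2.2.1) :=
    ((cof (c_SZ cz)).mul (contDiff_cut.comp (contDiff_const.mul cw2))).add
      ((cof (c_gam cz)).mul cg)
  exact via_Phi (fun p => rfl) (fun p => h.contDiffAt)

lemma smooth3 : ContMDiff IM (𝓡 2) 1 (fun p : Mfd => sec (xi2 p)) := by
  apply smooth_sec _ norm_xi2_le
  have cw1 : ContDiff ℝ 1 (fun v : V => v.2.1.1) :=
    contDiff_fst.comp (contDiff_fst.comp contDiff_snd)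
  have cz : ContDiff ℝ 1 (fun v : V => v.2.2.2.1) :=
    contDiff_fst.comp (contDiff_snd.comp (contDiff_snd.comp contDiff_snd))
  have cg : ContDiff ℝ 1 (fun v : V => v.2.2.2.2.2) :=
    contDiff_snd.comp (contDiff_snd.comp (contDiff_snd.comp (contDiff_snd.comp contDiff_snd)))
  have h : ContDiff ℝ 1 (fun v : V => (SZ v.2.2.2.1 : ℂ) * cut (8 * v.2.1.1) +
      (gam v.2.2.2.1 : ℂ) * (v.2.2.2.2.2 / 8)) :=
    ((cof (c_SZ cz)).mul (contDiff_cut.comp (contDiff_const.mul cw1))).add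
      ((cof (c_gam cz)).mul (cg.div_const 8))
  exact via_Phi (fun p => rfl) (fun p => h.contDiffAt)

lemma smooth4 : ContMDiff IM (𝓡 1) 1 (fun p : Mfd => nextZ (tau p) p.2.2.2) := by
  apply contMDiff_into_S1
  have cb : ContDiff ℝ 1 (fun v : V => v.1.2) := contDiff_snd.comp contDiff_fst
  have ch1 : ContDiff ℝ 1 (fun v : V => v.2.1.2) :=
    contDiff_snd.comp (contDiff_fst.comp contDiff_snd)
  have ch2 : ContDiff ℝ 1 (fun v : V => v.2.2.1.2) :=
    contDiff_snd.comp (contDiff_fst.comp (contDiff_snd.comp contDiff_snd))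
  have cz : ContDiff ℝ 1 (fun v : V => v.2.2.2.1) :=
    contDiff_fst.comp (contDiff_snd.comp (contDiff_snd.comp contDiff_snd))
  have ct : ContDiff ℝ 1 (fun v : V => 1 - psi v.2.2.2.1 * smoothTransition (-v.1.2) *
      ((1 - v.2.1.2) * (1 - v.2.2.1.2) / 4)) :=
    contDiff_const.sub (((c_psi cz).mul (cst cb.neg)).mul
      (((contDiff_const.sub ch1).mul (contDiff_const.sub ch2)).div_const 4))
  have h := cz.mul (c_hour ct)
  exact via_Phi (fun p => rfl) (fun p => h.contDiffAt)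

end SmoothAux

theorem contMDiff_F : ContMDiff IM IM 1 F :=
  SmoothAux.smooth1.prodMk (SmoothAux.smooth2.prodMk (SmoothAux.smooth3.prodMk SmoothAux.smooth4))

end Crest.Agent.R123
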