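import Mathlib
import Crest.Agent.R123.XDefs
import Crest.Agent.R123.HBasic
import Crest.Agent.R123.XSmoothM_Mg

-- ▼ part R123/Mfd
section

set_option autoImplicit false
open scoped Manifold ContDiff Topology
open Set

namespace Crest.Agent.R123

section transport

variable {E F : Type} [NormedAddCommGroup E] [NormedSpace ℝ E]
  [NormedAddCommGroup F] [NormedSpace ℝ F]

/-- Transport the model space of a charted space along a continuous linear equivalence. -/
@[reducible] def tCharted (e : E ≃L[ℝ] F) (M : Type) [TopologicalSpace M] [ChartedSpace E M] :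
    ChartedSpace F M where
  atlas := (fun c => c.trans e.toHomeomorph.toOpenPartialHomeomorph) '' atlas E M
  chartAt x := (chartAt E x).trans e.toHomeomorph.toOpenPartialHomeomorph
  mem_chart_source x := by simp
  chart_mem_atlas x := ⟨chartAt E x, chart_mem_atlas E x, rfl⟩

theorem tCharted_isManifold (e : E ≃L[ℝ] F) (M : Type) [TopologicalSpace M] [ChartedSpace E M]
    [IsManifold 𝓘(ℝ, E) ∞ M] :
    @IsManifold ℝ _ F _ _ F _ 𝓘(ℝ, F) ∞ M _ (tCharted e M) := by
  let _ := tCharted e M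
  apply isManifold_of_contDiffOn
  rintro _ _ ⟨c, hc, rfl⟩ ⟨c', hc', rfl⟩
  have h := (contDiffGroupoid ∞ 𝓘(ℝ, E)).compatible hc hc'
  rw [contDiffGroupoid, mem_groupoid_of_pregroupoid] at h
  have h1 := h.1
  simp only [contDiffPregroupoid, mfld_simps] at h1
  have h2 : ContDiffOn ℝ ∞ (e ∘ (c' ∘ c.symm) ∘ e.symm)
      (e.symm ⁻¹' (c.target ∩ c.symm ⁻¹' c'.source)) := by
    refine (e.contDiff.comp_contDiffOn (h1.comp e.symm.contDiff.contDiffOn ?_))
    intro x hx
    simpa using hx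
  refine h2.congr_mono ?_ ?_
  · intro x hx
    simp
  · intro x hx
    simpa using hx

theorem tCharted_contMDiff (e : E ≃L[ℝ] F) (M : Type) [TopologicalSpace M] [ChartedSpace E M]
    [IsManifold 𝓘(ℝ, E) ∞ M] (f : M → M) (hf : ContMDiff 𝓘(ℝ, E) 𝓘(ℝ, E) 1 f) :
    @ContMDiff ℝ _ F _ _ F _ 𝓘(ℝ, F) M _ (tCharted e M) F _ _ F _ 𝓘(ℝ, F) M _
      (tCharted e M) 1 f := by
  have h1M : IsManifold 𝓘(ℝ, E) 1 M := IsManifold.of_le (n := ∞) (by norm_num)
  have hc := (contMDiff_iff (I := 𝓘(ℝ, E)) (I' := 𝓘(ℝ, E)) (n := 1) (f := f)).1 hf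
  let _ := tCharted e M
  have hM : @IsManifold ℝ _ F _ _ F _ 𝓘(ℝ, F) ∞ M _ (tCharted e M) := tCharted_isManifold e M
  have hM1 : IsManifold 𝓘(ℝ, F) 1 M := IsManifold.of_le (n := ∞) (by norm_num)
  rw [contMDiff_iff]
  refine ⟨hc.1, fun x y => ?_⟩
  have h : ContDiffOn ℝ 1 (chartAt E y ∘ f ∘ (chartAt E x).symm)
      ((chartAt E x).target ∩ (chartAt E x).symm ⁻¹' (f ⁻¹' (chartAt E y).source)) := by
    have h := hc.2 x y
    simpa only [mfld_simps] using h
  have h2 : ContDiffOn ℝ 1 (e ∘ (chartAt E y ∘ f ∘ (chartAt E x).symm) ∘ e.symm)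
      (e.symm ⁻¹' ((chartAt E x).target ∩ (chartAt E x).symm ⁻¹' (f ⁻¹' (chartAt E y).source))) :=
    e.contDiff.comp_contDiffOn (h.comp e.symm.contDiff.contDiffOn (fun x hx => hx))
  have hch : ∀ x : M, chartAt F x = (chartAt E x).trans e.toHomeomorph.toOpenPartialHomeomorph :=
    fun _ => rfl
  refine h2.congr_mono ?_ ?_
  · intro z hz
    simp [extChartAt, hch]
  · intro z hz
    simpa [extChartAt, hch] using hz

end transport

end Crest.Agent.R123

namespace Crest.Agent.R123

open Metric Module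

section product

variable (E : Type) [NormedAddCommGroup E] [InnerProductSpace ℝ E] [Fact (finrank ℝ E = 2 + 1)]
variable (E' : Type) [NormedAddCommGroup E'] [InnerProductSpace ℝ E'] [Fact (finrank ℝ E' = 1 + 1)]

/-- The product of three spheres of `E` and one of `E'`. -/
abbrev PM : Type := sphere (0 : E) 1 × sphere (0 : E) 1 × sphere (0 : E) 1 × sphere (0 : E') 1

abbrev Mod7 : Type := EuclideanSpace ℝ (Fin 2) × EuclideanSpace ℝ (Fin 2) ×
  EuclideanSpace ℝ (Fin 2) × EuclideanSpace ℝ (Fin 1)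

@[reducible] noncomputable def pmCharted : ChartedSpace Mod7 (PM E E') :=
  inferInstanceAs (ChartedSpace (ModelProd (EuclideanSpace ℝ (Fin 2))
    (ModelProd (EuclideanSpace ℝ (Fin 2)) (ModelProd (EuclideanSpace ℝ (Fin 2))
      (EuclideanSpace ℝ (Fin 1))))) (PM E E'))

theorem model_eq : (𝓘(ℝ, Mod7)) = (𝓡 2).prod ((𝓡 2).prod ((𝓡 2).prod (𝓡 1))) := by
  rw [modelWithCornersSelf_prod, modelWithCornersSelf_prod, modelWithCornersSelf_prod]

theorem pm_isManifold : @IsManifold ℝ _ Mod7 _ _ Mod7 _ 𝓘(ℝ, Mod7) ∞ (PM E E') _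
    (pmCharted E E') := by
  rw [model_eq]
  exact inferInstanceAs (IsManifold ((𝓡 2).prod ((𝓡 2).prod ((𝓡 2).prod (𝓡 1)))) ∞ (PM E E'))




/-- The model space `ℝ² × ℝ² × ℝ² × ℝ¹` is linearly isomorphic to `ℝ⁷`. -/
noncomputable def mod7Equiv : Mod7 ≃L[ℝ] EuclideanSpace ℝ (Fin 7) :=
  ContinuousLinearEquiv.ofFinrankEq (by simp)


end product

end Crest.Agent.R123
end

-- ▼ part R123/XCharts
section

set_option autoImplicit false

open scoped Manifold ContDiff

namespace Crest.Agent.R123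

theorem exists_charts :
    ∃ (_ : ChartedSpace (EuclideanSpace ℝ (Fin 7)) Mfd)
      (_ : IsManifold (modelWithCornersSelf ℝ (EuclideanSpace ℝ (Fin 7))) ∞ Mfd),
      ∀ f : Mfd → Mfd,
        ContMDiff ((𝓡 2).prod ((𝓡 2).prod ((𝓡 2).prod (𝓡 1))))
          ((𝓡 2).prod ((𝓡 2).prod ((𝓡 2).prod (𝓡 1)))) 1 f →
        ContMDiff (modelWithCornersSelf ℝ (EuclideanSpace ℝ (Fin 7)))
          (modelWithCornersSelf ℝ (EuclideanSpace ℝ (Fin 7))) 1 f := by
  let _ := pmCharted E3 ℂ
  have _ : IsManifold (modelWithCornersSelf ℝ Mod7) ∞ (PM E3 ℂ) := pm_isManifold E3 ℂ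
  refine ⟨tCharted mod7Equiv (PM E3 ℂ), tCharted_isManifold mod7Equiv (PM E3 ℂ), ?_⟩
  intro f hf
  have h : ContMDiff (modelWithCornersSelf ℝ Mod7) (modelWithCornersSelf ℝ Mod7) 1 f := by
    rw [model_eq]
    exact hf
  exact tCharted_contMDiff mod7Equiv (PM E3 ℂ) f h

end Crest.Agent.R123
end

-- ▼ part R123/HDouble
section

/-! Row 123: the class of a sphere glued from two discs, and its doubling. -/

set_option autoImplicit false

open CategoryTheory AlgebraicTopology Simplicial Opposite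

namespace Crest.Agent.R123.Hom

noncomputable section

/-- the closed unit disc -/
abbrev D2 : Type := Metric.closedBall (0 : ℂ) 1

theorem face_apply {n : ℕ} (i : Fin (n + 2)) (s : Dn n) (j : Fin (n + 2)) :
    (face n i s) j = ∑ k : Fin (n + 1), if i.succAbove k = j then s k else 0 := by
  classical
  show (stdSimplex.map i.succAbove s) j = _
  rw [stdSimplex.map_coe, FunOnFinite.linearMap_apply_apply, Finset.sum_filter]

theorem face0 (s : Dn 1) : (face 1 0 s) 0 = 0 ∧ (face 1 0 s) 1 = s 0 ∧ (face 1 0 s) 2 = s 1 := by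
  refine ⟨?_, ?_, ?_⟩ <;> rw [face_apply, Fin.sum_univ_two] <;> simp [Fin.succAbove, Fin.ext_iff]

theorem face1 (s : Dn 1) : (face 1 1 s) 0 = s 0 ∧ (face 1 1 s) 1 = 0 ∧ (face 1 1 s) 2 = s 1 := by
  refine ⟨?_, ?_, ?_⟩ <;> rw [face_apply, Fin.sum_univ_two] <;> simp [Fin.succAbove, Fin.ext_iff]

theorem face2 (s : Dn 1) : (face 1 2 s) 0 = s 0 ∧ (face 1 2 s) 1 = s 1 ∧ (face 1 2 s) 2 = 0 := by
  refine ⟨?_, ?_, ?_⟩ <;> rw [face_apply, Fin.sum_univ_two] <;> simp [Fin.succAbove, Fin.ext_iff]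

/-- `e(t) = exp(2 π i t)` -/
def ee (t : ℝ) : ℂ := Complex.exp ((2 * Real.pi * t : ℝ) * Complex.I)

theorem norm_ee (t : ℝ) : ‖ee t‖ = 1 := Complex.norm_exp_ofReal_mul_I _

theorem continuous_ee : Continuous ee := by
  unfold ee
  fun_prop

theorem ee_add_one (t : ℝ) : ee (t + 1) = ee t := by
  unfold ee
  rw [Complex.exp_eq_exp_iff_exists_int]
  refine ⟨1, ?_⟩
  push_cast
  ring

theorem ee_one : ee 1 = 1 := by
  have := ee_add_one 0
  rw [zero_add] at this
  rw [this]
  simp [ee]

theorem ee_zero : ee 0 = 1 := by simp [ee]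

theorem ee_sq (t : ℝ) : ee t ^ 2 = ee (2 * t) := by
  unfold ee
  rw [← Complex.exp_nat_mul]
  congr 1
  push_cast
  ring

/-- cone coordinates -/
def kf (p : ℝ × ℝ) : ℂ := ((p.1 + p.2 : ℝ) : ℂ) * ee (p.2 / (p.1 + p.2))

theorem norm_kf (p : ℝ × ℝ) : ‖kf p‖ = |p.1 + p.2| := by
  unfold kf
  rw [norm_mul, norm_ee, mul_one, Complex.norm_real, Real.norm_eq_abs]

theorem continuous_kf : Continuous kf := by
  rw [continuous_iff_continuousAt]
  intro p
  by_cases h : p.1 + p.2 = 0
  · have h0 : kf p = 0 := by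
      have := norm_kf p
      rw [h, abs_zero, norm_eq_zero] at this
      exact this
    unfold ContinuousAt
    rw [h0, tendsto_zero_iff_norm_tendsto_zero]
    simp only [norm_kf]
    have h1 : Continuous fun p : ℝ × ℝ => |p.1 + p.2| := by fun_prop
    have h2 := h1.tendsto p
    rw [h, abs_zero] at h2
    exact h2
  · unfold kf
    have h1 : ContinuousAt (fun p : ℝ × ℝ => ((p.1 + p.2 : ℝ) : ℂ)) p := by fun_prop
    have h2 : ContinuousAt (fun p : ℝ × ℝ => p.2 / (p.1 + p.2)) p := by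
      apply ContinuousAt.div
      · fun_prop
      · fun_prop
      · exact h
    exact h1.mul (continuous_ee.continuousAt.comp h2)

theorem continuous_coord {n : ℕ} (i : Fin (n + 1)) : Continuous fun s : Dn n => s i :=
  (continuous_apply i).comp continuous_subtype_val

theorem kf_mem (t : Dn 2) : kf (t 1, t 2) ∈ Metric.closedBall (0 : ℂ) 1 := by
  rw [mem_closedBall_zero_iff, norm_kf]
  have h0 := stdSimplex.zero_le t 0
  have h1 := stdSimplex.zero_le t 1
  have h2 := stdSimplex.zero_le t 2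
  have h' := stdSimplex.sum_eq_one t
  rw [Fin.sum_univ_three] at h'
  rw [abs_of_nonneg (add_nonneg h1 h2)]
  show t 1 + t 2 ≤ 1
  linarith

/-- the cone simplex -/
def kap : C(Dn 2, D2) where
  toFun t := ⟨kf (t 1, t 2), kf_mem t⟩
  continuous_toFun := (continuous_kf.comp
    ((continuous_coord 1).prodMk (continuous_coord 2))).subtype_mk _

/-- a point of the circle as a point of the disc -/
def circ (t : ℝ) : D2 := ⟨ee t, by rw [mem_closedBall_zero_iff, norm_ee]⟩

theorem continuous_circ : Continuous circ := continuous_ee.subtype_mk _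

/-- the loop -/
def gam1 : C(Dn 1, D2) := ⟨fun s => circ (s 1), continuous_circ.comp (continuous_coord 1)⟩

/-- the doubled loop -/
def gam2 : C(Dn 1, D2) :=
  ⟨fun s => circ (2 * s 1), continuous_circ.comp (continuous_const.mul (continuous_coord 1))⟩

/-- the meridian -/
def mer : C(Dn 1, D2) := kap.comp (face 1 1)

/-- the simplex on the circle -/
def ww : C(Dn 2, D2) :=
  ⟨fun s => circ (s 1 + 2 * s 2), continuous_circ.comp
    ((continuous_coord 1).add (continuous_const.mul (continuous_coord 2)))⟩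

theorem sum_two (s : Dn 1) : s 0 + s 1 = 1 := stdSimplex.add_eq_one s

theorem kap_face0 : kap.comp (face 1 0) = gam1 := by
  refine ContinuousMap.ext fun s => Subtype.ext ?_
  show kf ((face 1 0 s) 1, (face 1 0 s) 2) = ee (s 1)
  obtain ⟨h0, h1, h2⟩ := face0 s
  rw [h1, h2]
  unfold kf
  simp only [sum_two, div_one, Complex.ofReal_one, one_mul]

theorem kap_face2 : kap.comp (face 1 2) = mer := by
  refine ContinuousMap.ext fun s => Subtype.ext ?_
  show kf ((face 1 2 s) 1, (face 1 2 s) 2) = kf ((face 1 1 s) 1, (face 1 1 s) 2)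
  obtain ⟨h0, h1, h2⟩ := face2 s
  obtain ⟨k0, k1, k2⟩ := face1 s
  rw [h1, h2, k1, k2]
  unfold kf
  simp only [add_zero, zero_div, zero_add, ee_zero, mul_one]
  by_cases h : s 1 = 0
  · simp [h]
  · rw [div_self h, ee_one, mul_one]

theorem ww_face0 : ww.comp (face 1 0) = gam1 := by
  ext s
  show ee ((face 1 0 s) 1 + 2 * (face 1 0 s) 2) = ee (s 1)
  obtain ⟨h0, h1, h2⟩ := face0 s
  rw [h1, h2, ← ee_add_one (s 1)]
  congr 1
  have := sum_two s
  linarith

theorem ww_face1 : ww.comp (face 1 1) = gam2 := by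
  ext s
  show ee ((face 1 1 s) 1 + 2 * (face 1 1 s) 2) = ee (2 * s 1)
  obtain ⟨h0, h1, h2⟩ := face1 s
  rw [h1, h2, zero_add]

theorem ww_face2 : ww.comp (face 1 2) = gam1 := by
  ext s
  show ee ((face 1 2 s) 1 + 2 * (face 1 2 s) 2) = ee (s 1)
  obtain ⟨h0, h1, h2⟩ := face2 s
  rw [h1, h2, mul_zero, add_zero]

variable {X Y : Type} [TopologicalSpace X] [TopologicalSpace Y]

theorem bd_sgl2 (σ : C(Dn 2, X)) : bd X 1 (sgl σ) = sgl (σ.comp (face 1 0))
    - sgl (σ.comp (face 1 1)) + sgl (σ.comp (face 1 2)) := by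
  rw [bd_sgl, Fin.sum_univ_three]
  simp [sub_eq_add_neg]

theorem bd_kap : bd D2 1 (sgl kap) = sgl gam1 := by
  rw [bd_sgl2, kap_face0, kap_face2]
  show sgl gam1 - sgl mer + sgl mer = _
  abel

theorem bd_ww : bd D2 1 (sgl ww) = (2 : ℝ) • sgl gam1 - sgl gam2 := by
  rw [bd_sgl2, ww_face0, ww_face1, ww_face2, two_smul]
  abel

instance : ContractibleSpace D2 :=
  (convex_closedBall (0 : ℂ) 1).contractibleSpace ⟨0, by simp⟩

/-- the glued cycle -/
def hemi (σp σm : C(D2, X)) : (SC X).X 2 := sgl (σp.comp kap) - sgl (σm.comp kap)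

theorem comp_gam1 (σp σm : C(D2, X)) (hσ : ∀ z : D2, ‖(z : ℂ)‖ = 1 → σp z = σm z) :
    σp.comp gam1 = σm.comp gam1 := by
  ext s
  exact hσ _ (norm_ee _)

theorem comp_ww (σp σm : C(D2, X)) (hσ : ∀ z : D2, ‖(z : ℂ)‖ = 1 → σp z = σm z) :
    σp.comp ww = σm.comp ww := by
  ext s
  exact hσ _ (norm_ee _)

theorem bd_hemi (σp σm : C(D2, X)) (hσ : ∀ z : D2, ‖(z : ℂ)‖ = 1 → σp z = σm z) :
    bd X 1 (hemi σp σm) = 0 := by
  unfold hemi
  rw [map_sub, ← push_sgl σp kap, ← push_sgl σm kap, bd_push, bd_push, bd_kap, push_sgl, push_sgl,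
    comp_gam1 σp σm hσ, sub_self]

theorem comp_q (q : C(D2, D2)) (hq : ∀ z : D2, ‖(z : ℂ)‖ = 1 → (q z : ℂ) = (z : ℂ) ^ 2) :
    q.comp gam1 = gam2 := by
  ext s
  show (q (circ (s 1)) : ℂ) = ee (2 * s 1)
  rw [hq _ (norm_ee _)]
  exact ee_sq _

theorem exists_fill (q : C(D2, D2)) (hq : ∀ z : D2, ‖(z : ℂ)‖ = 1 → (q z : ℂ) = (z : ℂ) ^ 2) :
    ∃ y, bd D2 2 y = push q 2 (sgl kap) - (2 : ℝ) • sgl kap + sgl ww := by
  apply exists_bd_of_contractible
  rw [map_add, map_sub, map_smul, bd_push, bd_kap, bd_ww, push_sgl, comp_q q hq]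
  abel

theorem push_comp_apply {Z : Type} [TopologicalSpace Z] (f : C(X, Y)) (g : C(Y, Z)) (n : ℕ)
    (x : (SC X).X n) : push (g.comp f) n x = push g n (push f n x) := by
  have h : push (g.comp f) n = (push g n).comp (push f n) := by
    apply chain_ext
    intro σ
    rw [LinearMap.comp_apply, push_sgl, push_sgl, push_sgl]
    rfl
  rw [h]
  rfl

/-- doubling of the glued class -/
theorem double_hemi (F : C(X, X)) (σp σm : C(D2, X)) (qp qm : C(D2, D2))
    (hσ : ∀ z : D2, ‖(z : ℂ)‖ = 1 → σp z = σm z)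
    (hqp : ∀ z : D2, ‖(z : ℂ)‖ = 1 → (qp z : ℂ) = (z : ℂ) ^ 2)
    (hqm : ∀ z : D2, ‖(z : ℂ)‖ = 1 → (qm z : ℂ) = (z : ℂ) ^ 2)
    (hFp : F.comp σp = σp.comp qp) (hFm : F.comp σm = σm.comp qm) :
    ∃ y, bd X 2 y = push F 2 (hemi σp σm) - (2 : ℝ) • hemi σp σm := by
  obtain ⟨yp, hyp⟩ := exists_fill qp hqp
  obtain ⟨ym, hym⟩ := exists_fill qm hqm
  refine ⟨push σp 3 yp - push σm 3 ym, ?_⟩
  rw [map_sub, bd_push, bd_push, hyp, hym]
  have e1 : push σp 2 (push qp 2 (sgl kap)) = push F 2 (sgl (σp.comp kap)) := by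
    rw [← push_sgl σp kap, ← push_comp_apply, ← push_comp_apply, hFp]
  have e2 : push σm 2 (push qm 2 (sgl kap)) = push F 2 (sgl (σm.comp kap)) := by
    rw [← push_sgl σm kap, ← push_comp_apply, ← push_comp_apply, hFm]
  have e3 : push σp 2 (sgl ww) = push σm 2 (sgl ww) := by
    rw [push_sgl, push_sgl, comp_ww σp σm hσ]
  unfold hemi
  rw [map_add, map_sub, map_smul, map_add, map_sub, map_smul, e1, e2, e3]
  simp only [push_sgl, map_sub, smul_sub]
  abel

theorem Hmap_hemi (F : C(X, X)) (σp σm : C(D2, X)) (qp qm : C(D2, D2))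
    (hσ : ∀ z : D2, ‖(z : ℂ)‖ = 1 → σp z = σm z)
    (hqp : ∀ z : D2, ‖(z : ℂ)‖ = 1 → (qp z : ℂ) = (z : ℂ) ^ 2)
    (hqm : ∀ z : D2, ‖(z : ℂ)‖ = 1 → (qm z : ℂ) = (z : ℂ) ^ 2)
    (hFp : F.comp σp = σp.comp qp) (hFm : F.comp σm = σm.comp qm) :
    Hmap F 2 (cls (hemi σp σm) (bd_hemi σp σm hσ))
      = (2 : ℝ) • cls (hemi σp σm) (bd_hemi σp σm hσ) := by
  have h0 : bd X 1 ((2 : ℝ) • hemi σp σm) = 0 := by
    rw [map_smul, bd_hemi σp σm hσ, smul_zero]
  rw [map_cls, ← cls_smul (2 : ℝ) (hemi σp σm) (bd_hemi σp σm hσ)]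
  exact (cls_eq_iff _ _ _ _).2 (double_hemi F σp σm qp qm hσ hqp hqm hFp hFm)

end

end Crest.Agent.R123.Hom
end

-- ▼ part R123/HSd
section

/-! Row 123: barycentric subdivision, in dual (cochain) form, on lists of points. -/

set_option autoImplicit false

namespace Crest.Agent.R123.Hom

noncomputable section

variable {T T' : Type*}

/-- alternating sum of the values on the faces -/
def B (φ : List T → ℝ) : List T → ℝ
  | [] => 0
  | v :: l => φ l - B (fun l' => φ (v :: l')) l

/-- pulling out the sum: linearity -/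
theorem B_sub (φ ψ : List T → ℝ) (l : List T) :
    B (fun l' => φ l' - ψ l') l = B φ l - B ψ l := by
  induction l generalizing φ ψ with
  | nil => simp [B]
  | cons v l ih =>
    simp only [B]
    rw [ih]
    ring

theorem B_zero (l : List T) : B (fun _ => 0) l = 0 := by
  induction l with
  | nil => simp [B]
  | cons v l ih => simp only [B, ih, sub_zero]

/-- faces of a list -/
inductive IsFace : List T → List T → Prop
  | head (v : T) (l : List T) : IsFace (v :: l) l
  | cons (v : T) (l l' : List T) (h : IsFace l l') : IsFace (v :: l) (v :: l')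

theorem IsFace.length {l l' : List T} (h : IsFace l l') : l.length = l'.length + 1 := by
  induction h with
  | head v l => rfl
  | cons v l l' h ih => simp [ih]

theorem IsFace.subset {l l' : List T} (h : IsFace l l') : ∀ x ∈ l', x ∈ l := by
  induction h with
  | head v l => intro x hx; exact List.mem_cons_of_mem _ hx
  | cons v l l' h ih =>
    intro x hx
    rcases List.mem_cons.1 hx with rfl | hx
    · exact List.mem_cons_self
    · exact List.mem_cons_of_mem _ (ih x hx)

theorem B_congr (φ ψ : List T → ℝ) (l : List T) (h : ∀ l', IsFace l l' → φ l' = ψ l') :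
    B φ l = B ψ l := by
  induction l generalizing φ ψ with
  | nil => simp [B]
  | cons v l ih =>
    simp only [B]
    rw [h l (IsFace.head v l), ih _ _ fun l' hl' => h _ (IsFace.cons v l l' hl')]

theorem B_B (φ : List T → ℝ) (l : List T) : B (B φ) l = 0 := by
  induction l generalizing φ with
  | nil => simp [B]
  | cons v l ih =>
    have : B (fun l' => B φ (v :: l')) l = B (fun l' => φ l' - B (fun l'' => φ (v :: l'')) l') l := by
      rfl
    show B φ l - B (fun l' => B φ (v :: l')) l = 0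
    rw [this, B_sub, ih]
    ring

theorem B_map (f : T → T') (φ : List T' → ℝ) (l : List T) :
    B φ (l.map f) = B (fun l' => φ (l'.map f)) l := by
  induction l generalizing φ with
  | nil => simp [B]
  | cons v l ih =>
    simp only [List.map_cons, B]
    rw [ih]

variable (b : List T → T)

/-- evaluation on the barycentric subdivision (fuel version) -/
def E : ℕ → (List T → ℝ) → List T → ℝ
  | 0, φ, l => φ l
  | n + 1, φ, l => B (E n (fun l' => φ (b l :: l'))) l

theorem E_sub (n : ℕ) (φ ψ : List T → ℝ) (l : List T) :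
    E b n (fun l' => φ l' - ψ l') l = E b n φ l - E b n ψ l := by
  induction n generalizing φ ψ l with
  | zero => rfl
  | succ n ih =>
    show B (E b n (fun l' => φ (b l :: l') - ψ (b l :: l'))) l = _
    have h : E b n (fun l' => φ (b l :: l') - ψ (b l :: l'))
        = fun l'' => E b n (fun l' => φ (b l :: l')) l'' - E b n (fun l' => ψ (b l :: l')) l'' := by
      funext l''
      exact ih _ _ _
    rw [h, B_sub]
    rfl

/-- the key identity -/
theorem E_B (n : ℕ) (φ : List T → ℝ) (l : List T) (hl : l.length = n) :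
    E b n (B φ) l = B (E b (n - 1) φ) l := by
  induction n generalizing φ l with
  | zero =>
    have : l = [] := List.length_eq_zero_iff.1 hl
    subst this
    simp [E, B]
  | succ n ih =>
    show B (E b n (fun l' => B φ (b l :: l'))) l = B (E b n φ) l
    have h : E b n (fun l' => B φ (b l :: l'))
        = fun l'' => E b n φ l'' - E b n (B (fun l' => φ (b l :: l'))) l'' := by
      funext l''
      have := E_sub b n φ (B (fun l' => φ (b l :: l'))) l''
      rw [← this]
      rfl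
    rw [h, B_sub]
    have h2 : B (E b n (B (fun l' => φ (b l :: l')))) l = 0 := by
      rw [B_congr _ (B (E b (n - 1) (fun l' => φ (b l :: l')))) l, B_B]
      intro l' hl'
      apply ih
      have := hl'.length
      omega
    rw [h2, sub_zero]

/-- evaluation on the barycentric subdivision -/
def Sd (φ : List T → ℝ) (l : List T) : ℝ := E b l.length φ l

theorem Sd_B (φ : List T → ℝ) : Sd b (B φ) = B (Sd b φ) := by
  funext l
  unfold Sd
  rw [E_B b _ φ l rfl]
  apply B_congr
  intro l' hl'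
  have := hl'.length
  congr 1
  omega

theorem iterate_Sd_B (m : ℕ) (φ : List T → ℝ) : (Sd b)^[m] (B φ) = B ((Sd b)^[m] φ) := by
  induction m generalizing φ with
  | zero => rfl
  | succ m ih => rw [Function.iterate_succ_apply, Sd_B, ih, Function.iterate_succ_apply]

/-- `l'` is a simplex of the subdivision of `l` (fuel version) -/
inductive InSd : ℕ → List T → List T → Prop
  | zero (l : List T) : InSd 0 l l
  | succ (n : ℕ) (l l1 l2 : List T) (h : IsFace l l1) (h2 : InSd n l1 l2) :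
      InSd (n + 1) l (b l :: l2)

theorem E_congr (n : ℕ) (φ ψ : List T → ℝ) (l : List T)
    (h : ∀ l', InSd b n l l' → φ l' = ψ l') : E b n φ l = E b n ψ l := by
  induction n generalizing φ ψ l with
  | zero => exact h l (InSd.zero l)
  | succ n ih =>
    show B (E b n (fun l' => φ (b l :: l'))) l = B (E b n (fun l' => ψ (b l :: l'))) l
    apply B_congr
    intro l1 hl1
    apply ih
    intro l2 hl2
    exact h _ (InSd.succ n l l1 l2 hl1 hl2)

/-- naturality for maps commuting with `b` on nonempty lists -/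
theorem E_map (b' : List T' → T') (f : T → T') (hf : ∀ l : List T, l ≠ [] → f (b l) = b' (l.map f))
    (n : ℕ) (φ : List T' → ℝ) (l : List T) (hl : l.length = n) :
    E b' n φ (l.map f) = E b n (fun l' => φ (l'.map f)) l := by
  induction n generalizing φ l with
  | zero => rfl
  | succ n ih =>
    have hne : l ≠ [] := by rintro rfl; simp at hl
    show B (E b' n (fun l' => φ (b' (l.map f) :: l'))) (l.map f) = _
    rw [B_map]
    show _ = B (E b n (fun l' => φ (f (b l) :: l'.map f))) l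
    apply B_congr
    intro l1 hl1
    have := hl1.length
    rw [ih _ _ (by omega), hf l hne]

theorem Sd_map (b' : List T' → T') (f : T → T')
    (hf : ∀ l : List T, l ≠ [] → f (b l) = b' (l.map f)) (φ : List T' → ℝ) (l : List T) :
    Sd b' φ (l.map f) = Sd b (fun l' => φ (l'.map f)) l := by
  unfold Sd
  rw [List.length_map]
  exact E_map b b' f hf _ φ l rfl

theorem iterate_Sd_map (b' : List T' → T') (f : T → T')
    (hf : ∀ l : List T, l ≠ [] → f (b l) = b' (l.map f)) (m : ℕ) (φ : List T' → ℝ) (l : List T) :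
    (Sd b')^[m] φ (l.map f) = (Sd b)^[m] (fun l' => φ (l'.map f)) l := by
  induction m generalizing φ l with
  | zero => rfl
  | succ m ih =>
    rw [Function.iterate_succ_apply, Function.iterate_succ_apply, ih]
    have h : (fun l' : List T => Sd b' φ (l'.map f)) = Sd b (fun l' => φ (l'.map f)) := by
      funext l'
      exact Sd_map b b' f hf φ l'
    rw [h]

theorem InSd.length {n : ℕ} {l l' : List T} (h : InSd b n l l') (hl : l.length = n) :
    l'.length = n := by
  induction h with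
  | zero l => exact hl
  | succ n l l1 l2 h1 h2 ih =>
    have := h1.length
    rw [List.length_cons, ih (by omega)]

section mesh

variable [PseudoMetricSpace T]

/-- all points are close to each other -/
def Sm (r : ℝ) (l : List T) : Prop := ∀ x ∈ l, ∀ y ∈ l, dist x y ≤ r

/-- properties of the barycenter map -/
structure BaryProp (b : List T → T) : Prop where
  conv : ∀ (l : List T) (p : T) (R : ℝ), l ≠ [] → (∀ v ∈ l, dist v p ≤ R) → dist (b l) p ≤ R
  small : ∀ (l : List T) (r : ℝ), l ≠ [] → l.length ≤ 4 → Sm r l → ∀ v ∈ l, dist (b l) v ≤ 3 / 4 * r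

variable {b}

theorem InSd.dist_le (hb : BaryProp b) {n : ℕ} {l l' : List T} (h : InSd b n l l')
    (hl : l.length = n) (p : T) (R : ℝ) (hR : ∀ v ∈ l, dist v p ≤ R) : ∀ w ∈ l', dist w p ≤ R := by
  induction h with
  | zero l => exact hR
  | succ n l l1 l2 h1 h2 ih =>
    intro w hw
    rcases List.mem_cons.1 hw with rfl | hw
    · exact hb.conv l p R (by rintro rfl; simp at hl) hR
    · have := h1.length
      exact ih (by omega) (fun v hv => hR v (h1.subset v hv)) w hw

theorem InSd.small (hb : BaryProp b) {n : ℕ} {l l' : List T} (h : InSd b n l l')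
    (hl : l.length = n) (hn : n ≤ 4) (r : ℝ) (hr : 0 ≤ r) (hs : Sm r l) : Sm (3 / 4 * r) l' := by
  induction h with
  | zero l =>
    intro x hx
    rw [List.length_eq_zero_iff.1 hl] at hx
    simp at hx
  | succ n l l1 l2 h1 h2 ih =>
    have hlen := h1.length
    have hne : l ≠ [] := by rintro rfl; simp at hl
    have h3 : ∀ v ∈ l, dist v (b l) ≤ 3 / 4 * r := fun v hv => by
      rw [dist_comm]
      exact hb.small l r hne (by omega) hs v hv
    have h4 : ∀ w ∈ l2, dist w (b l) ≤ 3 / 4 * r :=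
      h2.dist_le hb (by omega) (b l) _ fun v hv => h3 v (h1.subset v hv)
    have h5 : Sm (3 / 4 * r) l2 := ih (by omega) (by omega)
      fun x hx y hy => hs x (h1.subset x hx) y (h1.subset y hy)
    intro x hx y hy
    rcases List.mem_cons.1 hx with rfl | hx
    · rcases List.mem_cons.1 hy with rfl | hy
      · rw [dist_self]; positivity
      · rw [dist_comm]; exact h4 y hy
    · rcases List.mem_cons.1 hy with rfl | hy
      · exact h4 x hx
      · exact h5 x hx y hy

theorem iterate_Sd_congr (hb : BaryProp b) (m : ℕ) (φ ψ : List T → ℝ) (l : List T)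
    (hl : l.length ≤ 4) (r : ℝ) (hr : 0 ≤ r) (hs : Sm r l)
    (h : ∀ l' : List T, l'.length = l.length → Sm ((3 / 4) ^ m * r) l' → φ l' = ψ l') :
    (Sd b)^[m] φ l = (Sd b)^[m] ψ l := by
  induction m generalizing φ ψ with
  | zero =>
    apply h l rfl
    simpa using hs
  | succ m ih =>
    rw [Function.iterate_succ_apply, Function.iterate_succ_apply]
    apply ih
    intro l1 hl1 hs1
    unfold Sd
    apply E_congr
    intro l2 hl2
    apply h
    · rw [hl2.length b rfl, hl1]
    · have := hl2.small hb rfl (by omega) _ (by positivity) hs1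
      rw [← mul_assoc] at this
      rwa [pow_succ']

end mesh

end

end Crest.Agent.R123.Hom
private theorem rz_9673a9d8a4 : type_of% @_root_.Crest.Agent.R123.Hom.B.eq_def := @_root_.Crest.Agent.R123.Hom.B.eq_def -- L14
private theorem rz_8def0c1e9d : type_of% @_root_.Crest.Agent.R123.Hom.B.eq_1 := @_root_.Crest.Agent.R123.Hom.B.eq_1 -- L14
private theorem rz_bfb296096d : type_of% @_root_.Crest.Agent.R123.Hom.E.eq_def := @_root_.Crest.Agent.R123.Hom.E.eq_def -- L81
private theorem rz_2706f320d9 : type_of% @_root_.Crest.Agent.R123.Hom.E.eq_1 := @_root_.Crest.Agent.R123.Hom.E.eq_1 -- L81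
end

-- ▼ part R123/HBary
section

/-! Row 123: barycenters in standard simplices. -/

set_option autoImplicit false

namespace Crest.Agent.R123.Hom

noncomputable section

open scoped Classical in
theorem bary_mem {n : ℕ} (l : List (Dn n)) (hl : l ≠ []) :
    (fun i => (l.map fun p : Dn n => p i).sum / l.length) ∈ stdSimplex ℝ (Fin (n + 1)) := by
  have hlen : (0 : ℝ) < l.length := by
    have := List.length_pos_iff.2 hl
    exact_mod_cast this
  constructor
  · intro i
    apply div_nonneg _ hlen.le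
    apply List.sum_nonneg
    intro x hx
    obtain ⟨p, _, rfl⟩ := List.mem_map.1 hx
    exact stdSimplex.zero_le p i
  · rw [← Finset.sum_div, div_eq_one_iff_eq hlen.ne']
    clear hlen hl
    induction l with
    | nil => simp
    | cons p l ih =>
      simp only [List.map_cons, List.sum_cons, Finset.sum_add_distrib, ih, List.length_cons]
      rw [stdSimplex.sum_eq_one]
      push_cast
      ring

open scoped Classical in
/-- the barycenter -/
def bary {n : ℕ} (l : List (Dn n)) : Dn n :=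
  if hl : l ≠ [] then ⟨fun i => (l.map fun p : Dn n => p i).sum / l.length, bary_mem l hl⟩
  else stdSimplex.vertex 0

theorem bary_apply {n : ℕ} (l : List (Dn n)) (hl : l ≠ []) (i : Fin (n + 1)) :
    bary l i = (l.map fun p : Dn n => p i).sum / l.length := by
  unfold bary
  rw [dif_pos hl]
  rfl

theorem bary_singleton {n : ℕ} (p : Dn n) : bary [p] = p := by
  ext i
  rw [bary_apply _ (by simp)]
  simp

theorem dist_Dn_le {n : ℕ} (p q : Dn n) (R : ℝ) (hR : 0 ≤ R) :
    dist p q ≤ R ↔ ∀ i, |p i - q i| ≤ R := by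
  rw [Subtype.dist_eq, dist_pi_le_iff hR]
  rfl

theorem sum_sub_le (xs : List ℝ) (c R : ℝ) (h : ∀ x ∈ xs, |x - c| ≤ R) :
    |xs.sum - xs.length * c| ≤ xs.length * R := by
  induction xs with
  | nil => simp
  | cons x xs ih =>
    have h1 := ih fun y hy => h y (List.mem_cons_of_mem _ hy)
    have h2 := h x List.mem_cons_self
    rw [List.sum_cons, List.length_cons]
    push_cast
    have h3 : x + xs.sum - ((xs.length : ℝ) + 1) * c = (x - c) + (xs.sum - xs.length * c) := by ring
    rw [h3]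
    refine (abs_add_le _ _).trans ?_
    linarith

theorem baryProp (n : ℕ) : BaryProp (bary (n := n)) where
  conv := by
    intro l p R hl hR
    have hR0 : 0 ≤ R := by
      obtain ⟨v, hv⟩ := List.exists_mem_of_ne_nil l hl
      exact dist_nonneg.trans (hR v hv)
    have hlen : (0 : ℝ) < l.length := by
      have := List.length_pos_iff.2 hl
      exact_mod_cast this
    rw [dist_Dn_le _ _ _ hR0]
    intro i
    rw [bary_apply l hl]
    have h1 := sum_sub_le (l.map fun p : Dn n => p i) (p i) R (by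
      intro x hx
      obtain ⟨v, hv, rfl⟩ := List.mem_map.1 hx
      exact (dist_Dn_le _ _ _ hR0).1 (hR v hv) i)
    rw [List.length_map] at h1
    have h2 : (l.map fun p : Dn n => p i).sum / l.length - p i
        = ((l.map fun p : Dn n => p i).sum - l.length * p i) / l.length := by
      field_simp
    rw [h2, abs_div, abs_of_pos hlen, div_le_iff₀ hlen]
    linarith
  small := by
    classical
    intro l r hl hlen4 hs v hv
    have hr : 0 ≤ r := dist_nonneg.trans (hs v hv v hv)
    have hlen : (0 : ℝ) < l.length := by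
      have := List.length_pos_iff.2 hl
      exact_mod_cast this
    rw [dist_Dn_le _ _ _ (by positivity)]
    intro i
    rw [bary_apply l hl]
    obtain ⟨s, t, rfl⟩ := List.append_of_mem hv
    have h0 : ((s ++ v :: t).map fun p : Dn n => p i).sum
        = v i + ((s ++ t).map fun p : Dn n => p i).sum := by
      simp only [List.map_append, List.map_cons, List.sum_append, List.sum_cons]
      ring
    have h1 := sum_sub_le ((s ++ t).map fun p : Dn n => p i) (v i) r (by
      intro x hx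
      obtain ⟨w, hw, rfl⟩ := List.mem_map.1 hx
      refine (dist_Dn_le _ _ _ hr).1 (hs w ?_ v hv) i
      rcases List.mem_append.1 hw with hw | hw
      · exact List.mem_append_left _ hw
      · exact List.mem_append_right _ (List.mem_cons_of_mem _ hw))
    have h3 : ((s ++ t).length : ℝ) = ((s ++ v :: t).length : ℝ) - 1 := by
      simp only [List.length_append, List.length_cons]
      push_cast
      ring
    rw [List.length_map, h3] at h1
    set l := s ++ v :: t
    have h2 : (l.map fun p : Dn n => p i).sum / l.length - v i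
        = (((s ++ t).map fun p : Dn n => p i).sum - (l.length - 1) * v i) / l.length := by
      rw [h0]
      field_simp
      ring
    have h4 : (l.length : ℝ) ≤ 4 := by exact_mod_cast hlen4
    rw [h2, abs_div, abs_of_pos hlen, div_le_iff₀ hlen]
    nlinarith

theorem bary_face {n : ℕ} (i : Fin (n + 2)) (l : List (Dn n)) (hl : l ≠ []) :
    face n i (bary l) = bary (l.map (face n i)) := by
  ext j
  rw [bary_apply _ (by simpa using hl), face_apply]
  simp only [bary_apply l hl, List.map_map, List.length_map]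
  have h : ∀ l : List (Dn n), (l.map ((fun p : Dn (n + 1) => p j) ∘ (face n i))).sum
      = ∑ k : Fin (n + 1), if i.succAbove k = j then (l.map fun p : Dn n => p k).sum else 0 := by
    intro l
    induction l with
    | nil => simp
    | cons p l ih =>
      simp only [List.map_cons, List.sum_cons, ih, Function.comp_apply, face_apply]
      rw [← Finset.sum_add_distrib]
      refine Finset.sum_congr rfl fun k _ => ?_
      split_ifs <;> simp
  rw [h, Finset.sum_div]
  refine Finset.sum_congr rfl fun k _ => ?_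
  split_ifs <;> simp

/-- the subdivision operator on the standard simplex -/
abbrev SdD (n : ℕ) : (List (Dn n) → ℝ) → (List (Dn n) → ℝ) := Sd bary

theorem SdD_single {n : ℕ} (φ : List (Dn n) → ℝ) (v : Dn n) : SdD n φ [v] = φ [v] := by
  show B (E bary 0 (fun l' => φ (bary [v] :: l'))) [v] = φ [v]
  simp [B, E, bary_singleton]

theorem iterate_SdD_single {n : ℕ} (m : ℕ) (φ : List (Dn n) → ℝ) (v : Dn n) :
    (SdD n)^[m] φ [v] = φ [v] := by
  induction m generalizing φ with
  | zero => rfl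
  | succ m ih => rw [Function.iterate_succ_apply, ih, SdD_single]

theorem iterate_SdD_face {n : ℕ} (m : ℕ) (i : Fin (n + 2)) (φ : List (Dn (n + 1)) → ℝ)
    (l : List (Dn n)) :
    (SdD (n + 1))^[m] φ (l.map (face n i)) = (SdD n)^[m] (fun l' => φ (l'.map (face n i))) l :=
  iterate_Sd_map bary bary (face n i) (fun l hl => bary_face i l hl) m φ l

theorem dist_Dn_le_one {n : ℕ} (p q : Dn n) : dist p q ≤ 1 := by
  rw [dist_Dn_le _ _ _ zero_le_one]
  intro i
  have h1 := stdSimplex.zero_le p i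
  have h2 := stdSimplex.zero_le q i
  have h3 := stdSimplex.le_one p i
  have h4 := stdSimplex.le_one q i
  rw [abs_le]
  constructor <;> linarith

/-- two cochains agreeing on small lists have the same values on fine subdivisions -/
theorem eventually_SdD {n : ℕ} (φ ψ : List (Dn n) → ℝ) (l : List (Dn n)) (hl : l.length ≤ 4)
    (ε : ℝ) (hε : 0 < ε) (h : ∀ l' : List (Dn n), l'.length = l.length → Sm ε l' → φ l' = ψ l') :
    ∀ᶠ m : ℕ in Filter.atTop, (SdD n)^[m] φ l = (SdD n)^[m] ψ l := by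
  have h1 : Filter.Tendsto (fun m : ℕ => (3 / 4 : ℝ) ^ m) Filter.atTop (nhds 0) :=
    tendsto_pow_atTop_nhds_zero_of_lt_one (by norm_num) (by norm_num)
  filter_upwards [h1.eventually (ge_mem_nhds hε)] with m hm
  apply iterate_Sd_congr (baryProp n) m φ ψ l hl 1 zero_le_one
    (fun x _ y _ => dist_Dn_le_one x y)
  intro l' hl' hs
  apply h l' hl'
  intro x hx y hy
  exact (hs x hx y hy).trans (by rw [mul_one]; exact hm)

end

end Crest.Agent.R123.Hom
end

-- ▼ part R123/HLabel
section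

/-! Row 123: the label cocycle; the glued class is not zero. -/

set_option autoImplicit false

open CategoryTheory

namespace Crest.Agent.R123.Hom

noncomputable section

/-- 1-cochain on labels -/
def c1 (a b : Fin 4) : ℤ :=
  if a = 0 ∧ b = 1 then 1 else if a = 1 ∧ b = 0 then -1 else
  if a = 1 ∧ b = 2 then 1 else if a = 2 ∧ b = 1 then -1 else
  if a = 2 ∧ b = 0 then 1 else if a = 0 ∧ b = 2 then -1 else 0

/-- 2-cochain on labels -/
def c2 (a b c : Fin 4) : ℤ :=
  if a ≠ 3 ∧ b ≠ 3 ∧ c ≠ 3 then c1 b c - c1 a c + c1 a b else 0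

theorem c2_ne {a b c : Fin 4} (h : c2 a b c ≠ 0) :
    (a = 0 ∨ b = 0 ∨ c = 0) ∧ (a = 1 ∨ b = 1 ∨ c = 1) ∧ (a = 2 ∨ b = 2 ∨ c = 2) := by
  revert a b c; decide

theorem c2_cocycle {a b c d : Fin 4} (h : c2 b c d - (c2 a c d - (c2 a b d - c2 a b c)) ≠ 0) :
    (a = 0 ∨ b = 0 ∨ c = 0 ∨ d = 0) ∧ (a = 1 ∨ b = 1 ∨ c = 1 ∨ d = 1) ∧
      (a = 2 ∨ b = 2 ∨ c = 2 ∨ d = 2) ∧ (a = 3 ∨ b = 3 ∨ c = 3 ∨ d = 3) := by
  revert a b c d; decide

/-- list versions -/
def C1 : List (Fin 4) → ℝ
  | [a, b] => (c1 a b : ℝ)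
  | _ => 0

/-- list versions -/
def C2 : List (Fin 4) → ℝ
  | [a, b, c] => (c2 a b c : ℝ)
  | _ => 0

variable {X : Type} [TopologicalSpace X]

open scoped Classical in
/-- the label of a point -/
def lab (x y h : X → ℝ) (p : X) : Fin 4 :=
  if h p < -1 / 2 then 3 else if x p ≤ 0 then 1 else if 0 ≤ y p then 0 else 2

/-- vertices of the standard simplex -/
abbrev vx (n : ℕ) (i : Fin (n + 1)) : Dn n := stdSimplex.vertex i

/-- the value of the label cochain on the `m`-fold subdivision of a simplex -/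
def om (L : X → Fin 4) (m : ℕ) (σ : C(Dn 2, X)) : ℝ :=
  (SdD 2)^[m] (fun l => C2 (l.map fun p => L (σ p))) [vx 2 0, vx 2 1, vx 2 2]

theorem face_vx {n : ℕ} (i : Fin (n + 2)) (j : Fin (n + 1)) :
    face n i (vx n j) = vx (n + 1) (i.succAbove j) :=
  stdSimplex.map_vertex _ _

theorem om_face (L : X → Fin 4) (m : ℕ) (τ : C(Dn 3, X)) (i : Fin 4) :
    om L m (τ.comp (face 2 i)) = (SdD 3)^[m] (fun l => C2 (l.map fun p => L (τ p)))
      [vx 3 (i.succAbove 0), vx 3 (i.succAbove 1), vx 3 (i.succAbove 2)] := by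
  have h := iterate_SdD_face m i (fun l => C2 (l.map fun p => L (τ p))) [vx 2 0, vx 2 1, vx 2 2]
  simp only [List.map_cons, List.map_nil, face_vx, List.map_map] at h
  rw [h]
  rfl

theorem om_bd (L : X → Fin 4) (m : ℕ) (τ : C(Dn 3, X)) :
    ∑ i : Fin 4, (-1 : ℤ) ^ (i : ℕ) • om L m (τ.comp (face 2 i))
      = (SdD 3)^[m] (B (fun l => C2 (l.map fun p => L (τ p)))) [vx 3 0, vx 3 1, vx 3 2, vx 3 3] := by
  rw [iterate_Sd_B]
  simp only [om_face, Fin.sum_univ_four, B]
  simp [Fin.succAbove, Fin.lt_def]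
  ring

theorem iterate_SdD_zero {n : ℕ} (m : ℕ) (l : List (Dn n)) : (SdD n)^[m] (fun _ => 0) l = 0 := by
  have h : SdD n (fun _ => 0) = fun _ => 0 := by
    funext l
    show E bary l.length (fun _ => 0) l = 0
    have : ∀ (k : ℕ) (l : List (Dn n)), E bary k (fun _ => (0 : ℝ)) l = 0 := by
      intro k
      induction k with
      | zero => intro l; rfl
      | succ k ih =>
        intro l
        show B (E bary k (fun _ => 0)) l = 0
        rw [show E bary k (fun _ : List (Dn n) => (0 : ℝ)) = fun _ => 0 from funext ih]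
        exact B_zero l
    exact this _ _
  have h2 : (SdD n)^[m] (fun _ => 0) = fun _ => 0 := by
    induction m with
    | zero => rfl
    | succ m ih => rw [Function.iterate_succ_apply, h, ih]
  rw [h2]

/-- the geometric hypotheses on the coordinate functions -/
structure Coords (x y h : C(X, ℝ)) : Prop where
  nondeg : ∀ p, -1 / 2 ≤ h p → h p ≤ 0 → 1 / 4 ≤ x p ^ 2 + y p ^ 2

theorem lab_zero {x y h : X → ℝ} {p : X} (hp : lab x y h p = 0) :
    -1 / 2 ≤ h p ∧ 0 < x p ∧ 0 ≤ y p := by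
  unfold lab at hp
  split_ifs at hp with h1 h2 h3
  · exact absurd hp (by decide)
  · exact absurd hp (by decide)
  · exact ⟨not_lt.1 h1, not_le.1 h2, h3⟩
  · exact absurd hp (by decide)

theorem lab_one {x y h : X → ℝ} {p : X} (hp : lab x y h p = 1) : x p ≤ 0 := by
  unfold lab at hp
  split_ifs at hp with h1 h2 h3
  · exact absurd hp (by decide)
  · exact h2
  · exact absurd hp (by decide)
  · exact absurd hp (by decide)

theorem lab_two {x y h : X → ℝ} {p : X} (hp : lab x y h p = 2) : y p < 0 := by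
  unfold lab at hp
  split_ifs at hp with h1 h2 h3
  · exact absurd hp (by decide)
  · exact absurd hp (by decide)
  · exact absurd hp (by decide)
  · exact not_le.1 h3

theorem lab_three {x y h : X → ℝ} {p : X} (hp : lab x y h p = 3) : h p < -1 / 2 := by
  unfold lab at hp
  split_ifs at hp with h1 h2 h3
  · exact h1
  · exact absurd hp (by decide)
  · exact absurd hp (by decide)
  · exact absurd hp (by decide)

theorem lab_ne_three {x y h : X → ℝ} {p : X} (hp : -1 / 2 ≤ h p) : lab x y h p ≠ 3 := by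
  intro h3
  have := lab_three h3
  linarith

theorem no_three {x y h : C(X, ℝ)} (hc : Coords x y h) {p0 p1 p2 : X}
    (h0 : lab x y h p0 = 0) (h1 : lab x y h p1 = 1) (h2 : lab x y h p2 = 2)
    (hx : |x p0 - x p1| < 1 / 4) (hy : |y p0 - y p2| < 1 / 4) (hh : h p0 ≤ 0) : False := by
  obtain ⟨a1, a2, a3⟩ := lab_zero h0
  have b1 := lab_one h1
  have c1 := lab_two h2
  have := hc.nondeg p0 a1 hh
  rw [abs_lt] at hx hy
  nlinarith

theorem exists_small {n : ℕ} (σ : C(Dn n, X)) (x y h : C(X, ℝ)) :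
    ∃ ε > 0, ∀ p q : Dn n, dist p q ≤ ε → |x (σ p) - x (σ q)| < 1 / 4 ∧
      |y (σ p) - y (σ q)| < 1 / 4 ∧ |h (σ p) - h (σ q)| < 1 / 4 := by
  have key : ∀ u : C(X, ℝ), ∃ ε > 0, ∀ p q : Dn n, dist p q < ε →
      |u (σ p) - u (σ q)| < 1 / 4 := by
    intro u
    have hu : UniformContinuous (fun p : Dn n => u (σ p)) :=
      CompactSpace.uniformContinuous_of_continuous (by fun_prop)
    obtain ⟨ε, hε, H⟩ := Metric.uniformContinuous_iff.1 hu (1 / 4) (by norm_num)
    exact ⟨ε, hε, fun p q hpq => H hpq⟩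
  obtain ⟨e1, he1, H1⟩ := key x
  obtain ⟨e2, he2, H2⟩ := key y
  obtain ⟨e3, he3, H3⟩ := key h
  refine ⟨min e1 (min e2 e3) / 2, by positivity, fun p q hpq => ?_⟩
  have hm : 0 < min e1 (min e2 e3) := by positivity
  have hlt : dist p q < min e1 (min e2 e3) := by linarith
  exact ⟨H1 p q (hlt.trans_le (min_le_left _ _)),
    H2 p q (hlt.trans_le ((min_le_right _ _).trans (min_le_left _ _))),
    H3 p q (hlt.trans_le ((min_le_right _ _).trans (min_le_right _ _)))⟩

theorem list_three {T : Type*} {l : List T} (hl : l.length = 3) : ∃ a b c, l = [a, b, c] := by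
  match l, hl with
  | [a, b, c], _ => exact ⟨a, b, c, rfl⟩

theorem list_four {T : Type*} {l : List T} (hl : l.length = 4) : ∃ a b c d, l = [a, b, c, d] := by
  match l, hl with
  | [a, b, c, d], _ => exact ⟨a, b, c, d, rfl⟩

theorem list_two {T : Type*} {l : List T} (hl : l.length = 2) : ∃ a b, l = [a, b] := by
  match l, hl with
  | [a, b], _ => exact ⟨a, b, rfl⟩

/-- the label cochain is closed in the limit -/
theorem om_bd_eventually {x y h : C(X, ℝ)} (hc : Coords x y h) (τ : C(Dn 3, X)) :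
    ∀ᶠ m : ℕ in Filter.atTop,
      ∑ i : Fin 4, (-1 : ℤ) ^ (i : ℕ) • om (lab x y h) m (τ.comp (face 2 i)) = 0 := by
  obtain ⟨ε, hε, H⟩ := exists_small τ x y h
  have h1 := eventually_SdD (B (fun l => C2 (l.map fun p => lab x y h (τ p)))) (fun _ => 0)
    [vx 3 0, vx 3 1, vx 3 2, vx 3 3] (by simp) ε hε (by
      intro l hl hs
      obtain ⟨a, b, c, d, rfl⟩ := list_four (by simpa using hl)
      by_contra hne
      have hval : B (fun l => C2 (l.map fun p => lab x y h (τ p))) [a, b, c, d]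
          = ((c2 (lab x y h (τ b)) (lab x y h (τ c)) (lab x y h (τ d))
            - (c2 (lab x y h (τ a)) (lab x y h (τ c)) (lab x y h (τ d))
            - (c2 (lab x y h (τ a)) (lab x y h (τ b)) (lab x y h (τ d))
            - c2 (lab x y h (τ a)) (lab x y h (τ b)) (lab x y h (τ c)))) : ℤ) : ℝ) := by
        simp [B, C2]
      rw [hval] at hne
      have hne' := (c2_cocycle (Int.cast_ne_zero.1 hne))
      obtain ⟨g0, g1, g2, g3⟩ := hne'
      have f0 : ∃ p ∈ [a, b, c, d], lab x y h (τ p) = 0 := by simpa using g0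
      have f1 : ∃ p ∈ [a, b, c, d], lab x y h (τ p) = 1 := by simpa using g1
      have f2 : ∃ p ∈ [a, b, c, d], lab x y h (τ p) = 2 := by simpa using g2
      have f3 : ∃ p ∈ [a, b, c, d], lab x y h (τ p) = 3 := by simpa using g3
      obtain ⟨p0, m0, q0⟩ := f0
      obtain ⟨p1, m1, q1⟩ := f1
      obtain ⟨p2, m2, q2⟩ := f2
      obtain ⟨p3, m3, q3⟩ := f3
      have r1 := (H p0 p1 (hs p0 m0 p1 m1)).1
      have r2 := (H p0 p2 (hs p0 m0 p2 m2)).2.1
      have r3 := (H p0 p3 (hs p0 m0 p3 m3)).2.2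
      have r4 := lab_three q3
      rw [abs_lt] at r3
      exact no_three hc q0 q1 q2 r1 r2 (by linarith))
  filter_upwards [h1] with m hm
  rw [om_bd, hm, iterate_SdD_zero]

/-- the functional with values in sequences -/
def Om (L : X → Fin 4) : (SC X).X 2 →ₗ[ℝ] (ℕ → ℝ) := liftC (fun σ m => om L m σ)

/-- eventually vanishing sequences -/
def Nev : Submodule ℝ (ℕ → ℝ) where
  carrier := {f | ∀ᶠ m : ℕ in Filter.atTop, f m = 0}
  add_mem' := by
    intro f g hf hg
    filter_upwards [hf, hg] with m h1 h2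
    simp [h1, h2]
  zero_mem' := Filter.Eventually.of_forall fun _ => rfl
  smul_mem' := by
    intro r f hf
    filter_upwards [hf] with m h1
    simp [h1]

theorem Om_bd {x y h : C(X, ℝ)} (hc : Coords x y h) (z : (SC X).X 3) :
    Om (lab x y h) (bd X 2 z) ∈ Nev := by
  rw [← Submodule.Quotient.mk_eq_zero]
  have h1 : (Nev.mkQ.comp (Om (lab x y h))).comp (bd X 2) = 0 := by
    apply chain_ext
    intro τ
    rw [LinearMap.comp_apply, LinearMap.comp_apply, Submodule.mkQ_apply, LinearMap.zero_apply,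
      Submodule.Quotient.mk_eq_zero, bd_sgl, map_sum]
    have h2 : ∑ i : Fin (2 + 2), Om (lab x y h) ((-1 : ℤ) ^ (i : ℕ) • sgl (τ.comp (face 2 i)))
        = fun m => ∑ i : Fin 4, (-1 : ℤ) ^ (i : ℕ) • om (lab x y h) m (τ.comp (face 2 i)) := by
      funext m
      rw [Finset.sum_apply]
      refine Finset.sum_congr rfl fun i _ => ?_
      rw [map_zsmul]
      unfold Om
      rw [liftC_sgl]
      rfl
    rw [h2]
    exact om_bd_eventually hc τ
  exact congrArg (fun φ => φ z) h1

end

end Crest.Agent.R123.Hom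
private theorem rz_1c25791be8 : type_of% @_root_.Crest.Agent.R123.Hom.C1.eq_1 := @_root_.Crest.Agent.R123.Hom.C1.eq_1 -- L33
private theorem rz_8cd519209c : type_of% @_root_.Crest.Agent.R123.Hom.C2.eq_1 := @_root_.Crest.Agent.R123.Hom.C2.eq_1 -- L38
end

-- ▼ part R123/HomClass
section

/-! Row 123: the glued class is not zero; eigenvalue 2 on `H_2`. -/

set_option autoImplicit false

open CategoryTheory

namespace Crest.Agent.R123.Hom

noncomputable section

variable {X : Type} [TopologicalSpace X]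

/-- on the lower disc the label cochain is eventually zero -/
theorem om_lower {x y h : C(X, ℝ)} (hc : Coords x y h) (σ : C(Dn 2, X))
    (hσ : ∀ p, h (σ p) ≤ 0) : ∀ᶠ m : ℕ in Filter.atTop, om (lab x y h) m σ = 0 := by
  obtain ⟨ε, hε, H⟩ := exists_small σ x y h
  have h1 := eventually_SdD (fun l => C2 (l.map fun p => lab x y h (σ p))) (fun _ => 0)
    [vx 2 0, vx 2 1, vx 2 2] (by simp) ε hε (by
      intro l hl hs
      obtain ⟨a, b, c, rfl⟩ := list_three (by simpa using hl)
      by_contra hne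
      have hval : C2 ([a, b, c].map fun p => lab x y h (σ p))
          = (c2 (lab x y h (σ a)) (lab x y h (σ b)) (lab x y h (σ c)) : ℝ) := by
        simp [C2]
      rw [hval] at hne
      obtain ⟨g0, g1, g2⟩ := c2_ne (Int.cast_ne_zero.1 hne)
      have f0 : ∃ p ∈ [a, b, c], lab x y h (σ p) = 0 := by simpa using g0
      have f1 : ∃ p ∈ [a, b, c], lab x y h (σ p) = 1 := by simpa using g1
      have f2 : ∃ p ∈ [a, b, c], lab x y h (σ p) = 2 := by simpa using g2
      obtain ⟨p0, m0, q0⟩ := f0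
      obtain ⟨p1, m1, q1⟩ := f1
      obtain ⟨p2, m2, q2⟩ := f2
      have r1 := (H p0 p1 (hs p0 m0 p1 m1)).1
      have r2 := (H p0 p2 (hs p0 m0 p2 m2)).2.1
      exact no_three hc q0 q1 q2 r1 r2 (hσ p0))
  filter_upwards [h1] with m hm
  show (SdD 2)^[m] _ _ = 0
  rw [hm, iterate_SdD_zero]

/-- the value of the 1-cochain on the subdivided edge -/
def om1 (L : X → Fin 4) (m : ℕ) (σ : C(Dn 1, X)) : ℝ :=
  (SdD 1)^[m] (fun l => C1 (l.map fun p => L (σ p))) [vx 1 0, vx 1 1]

theorem om_upper (L : X → Fin 4) (σ : C(Dn 2, X)) (hσ : ∀ p, L (σ p) ≠ 3) (m : ℕ) :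
    om L m σ = om1 L m (σ.comp (face 1 0)) - om1 L m (σ.comp (face 1 1))
      + om1 L m (σ.comp (face 1 2)) := by
  have h1 : om L m σ = (SdD 2)^[m] (B (fun l => C1 (l.map fun p => L (σ p))))
      [vx 2 0, vx 2 1, vx 2 2] := by
    unfold om
    apply iterate_Sd_congr (baryProp 2) m _ _ _ (by simp) 1 zero_le_one
      (fun x _ y _ => dist_Dn_le_one x y)
    intro l hl _
    obtain ⟨a, b, c, rfl⟩ := list_three (by simpa using hl)
    simp [B, C1, C2, c2, hσ]
    ring
  have h2 : ∀ i : Fin 3, om1 L m (σ.comp (face 1 i))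
      = (SdD 2)^[m] (fun l => C1 (l.map fun p => L (σ p)))
        [vx 2 (i.succAbove 0), vx 2 (i.succAbove 1)] := by
    intro i
    have h := iterate_SdD_face m i (fun l => C1 (l.map fun p => L (σ p))) [vx 1 0, vx 1 1]
    simp only [List.map_cons, List.map_nil, face_vx, List.map_map] at h
    rw [h]
    rfl
  rw [h1, iterate_Sd_B, h2, h2, h2]
  simp [B, Fin.succAbove, Fin.lt_def]
  ring

/-- the lifted label -/
def FF (t : ℝ) : ℝ := if t < 1 / 4 then 0 else if t ≤ 3 / 4 then 1 else if t < 1 then 2 else 3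

/-- the label of a point of the circle -/
def lt (t : ℝ) : Fin 4 :=
  if Real.cos (2 * Real.pi * t) ≤ 0 then 1 else if 0 ≤ Real.sin (2 * Real.pi * t) then 0 else 2

theorem lt_eq {t : ℝ} (h0 : 0 ≤ t) (h1 : t ≤ 1) :
    lt t = if t < 1 / 4 then 0 else if t ≤ 3 / 4 then 1 else if t < 1 then 2 else 0 := by
  have hpi := Real.pi_pos
  unfold lt
  by_cases a1 : t < 1 / 4
  · have hc : 0 < Real.cos (2 * Real.pi * t) := Real.cos_pos_of_mem_Ioo ⟨by nlinarith, by nlinarith⟩
    have hs : 0 ≤ Real.sin (2 * Real.pi * t) := Real.sin_nonneg_of_nonneg_of_le_pi (by positivity)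
      (by nlinarith)
    rw [if_neg (not_le.2 hc), if_pos hs, if_pos a1]
  · rw [if_neg a1]
    by_cases a2 : t ≤ 3 / 4
    · have hc : Real.cos (2 * Real.pi * t) ≤ 0 :=
        Real.cos_nonpos_of_pi_div_two_le_of_le (by nlinarith) (by nlinarith)
      rw [if_pos hc, if_pos a2]
    · rw [if_neg a2]
      have hc : 0 < Real.cos (2 * Real.pi * t) := by
        rw [← Real.cos_sub_two_pi]
        exact Real.cos_pos_of_mem_Ioo ⟨by nlinarith, by nlinarith⟩
      rw [if_neg (not_le.2 hc)]
      by_cases a3 : t < 1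
      · have hs : Real.sin (2 * Real.pi * t) < 0 := by
          rw [← Real.sin_sub_two_pi]
          exact Real.sin_neg_of_neg_of_neg_pi_lt (by nlinarith) (by nlinarith)
        rw [if_neg (not_le.2 hs), if_pos a3]
      · have : t = 1 := le_antisymm h1 (not_lt.1 a3)
        subst this
        rw [mul_one, Real.sin_two_pi, if_pos le_rfl, if_neg a3]

theorem c1_lt {u v : ℝ} (hu0 : 0 ≤ u) (hu1 : u ≤ 1) (hv0 : 0 ≤ v) (hv1 : v ≤ 1)
    (huv : |u - v| ≤ 1 / 8) : (c1 (lt u) (lt v) : ℝ) = FF v - FF u := by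
  rw [lt_eq hu0 hu1, lt_eq hv0 hv1]
  rw [abs_le] at huv
  unfold FF
  split_ifs <;> first | (exfalso; linarith) | (simp [c1]; done) | (simp [c1]; norm_num)

/-- evaluation on the loop -/
theorem om1_loop (L : X → Fin 4) (σ : C(Dn 1, X)) (hσ : ∀ s : Dn 1, L (σ s) = lt (s 1)) :
    ∀ᶠ m : ℕ in Filter.atTop, om1 L m σ = 3 := by
  have h1 := eventually_SdD (fun l => C1 (l.map fun p => L (σ p)))
    (B (fun l : List (Dn 1) => match l with
      | [s] => FF (s 1)
      | _ => 0)) [vx 1 0, vx 1 1] (by simp) (1 / 8) (by norm_num) (by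
      intro l hl hs
      obtain ⟨a, b, rfl⟩ := list_two (by simpa using hl)
      have hd : |a 1 - b 1| ≤ 1 / 8 :=
        (dist_Dn_le a b (1 / 8) (by norm_num)).1 (hs a (by simp) b (by simp)) 1
      have := c1_lt (stdSimplex.zero_le a 1) (stdSimplex.le_one a 1) (stdSimplex.zero_le b 1)
        (stdSimplex.le_one b 1) hd
      simp only [List.map_cons, List.map_nil, C1, hσ, B]
      rw [this]
      ring)
  filter_upwards [h1] with m hm
  unfold om1
  rw [hm, iterate_Sd_B]
  simp only [B]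
  rw [iterate_SdD_single, iterate_SdD_single]
  simp [FF]
  norm_num

/-- the glued class is not a boundary -/
theorem hemi_ne {x y h : C(X, ℝ)} (hc : Coords x y h) (σp σm : C(D2, X))
    (hx : ∀ t : ℝ, x (σp (circ t)) = Real.cos (2 * Real.pi * t))
    (hy : ∀ t : ℝ, y (σp (circ t)) = Real.sin (2 * Real.pi * t))
    (hp : ∀ z, 0 ≤ h (σp z)) (hm : ∀ z, h (σm z) ≤ 0) (z : (SC X).X 3) :
    bd X 2 z ≠ hemi σp σm := by
  intro hz
  have h1 := Om_bd hc z
  rw [hz] at h1
  have h2 : ∀ᶠ m : ℕ in Filter.atTop, Om (lab x y h) (hemi σp σm) m = 0 := h1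
  have h3 : ∀ m : ℕ, Om (lab x y h) (hemi σp σm) m
      = om (lab x y h) m (σp.comp kap) - om (lab x y h) m (σm.comp kap) := by
    intro m
    unfold hemi Om
    rw [map_sub, liftC_sgl, liftC_sgl]
    rfl
  have h4 := om_lower hc (σm.comp kap) (fun p => hm _)
  have h5 : ∀ᶠ m : ℕ in Filter.atTop, om (lab x y h) m (σp.comp kap) = 3 := by
    have h6 := om1_loop (lab x y h) (σp.comp gam1) (by
      intro s
      have hh := hp (circ (s 1))
      show lab x y h (σp (circ (s 1))) = lt (s 1)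
      unfold lab lt
      rw [if_neg (by linarith), hx, hy])
    filter_upwards [h6] with m hm6
    rw [om_upper (lab x y h) (σp.comp kap) (fun p => lab_ne_three (by
      have := hp (kap p)
      show -1 / 2 ≤ h (σp (kap p))
      linarith)) m]
    rw [ContinuousMap.comp_assoc, ContinuousMap.comp_assoc, ContinuousMap.comp_assoc, kap_face0,
      kap_face2, hm6]
    show 3 - om1 _ m (σp.comp mer) + om1 _ m (σp.comp mer) = 3
    ring
  obtain ⟨m, a, b, c⟩ := (h2.and (h4.and h5)).exists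
  rw [h3, b, c] at a
  norm_num at a

theorem cls_hemi_ne {x y h : C(X, ℝ)} (hc : Coords x y h) (σp σm : C(D2, X))
    (hσ : ∀ z : D2, ‖(z : ℂ)‖ = 1 → σp z = σm z)
    (hx : ∀ t : ℝ, x (σp (circ t)) = Real.cos (2 * Real.pi * t))
    (hy : ∀ t : ℝ, y (σp (circ t)) = Real.sin (2 * Real.pi * t))
    (hp : ∀ z, 0 ≤ h (σp z)) (hm : ∀ z, h (σm z) ≤ 0) :
    cls (hemi σp σm) (bd_hemi σp σm hσ) ≠ 0 := by
  rw [Ne, cls_eq_zero_iff]
  rintro ⟨z, hz⟩
  exact hemi_ne hc σp σm hx hy hp hm z hz


end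

end Crest.Agent.R123.Hom
end

-- ▼ part R123/HomS2
section

/-! Row 123: the squaring map on the sphere and the transfer theorem. -/

set_option autoImplicit false

open CategoryTheory

namespace Crest.Agent.R123.Hom

noncomputable section

/-- transfer of an eigenvector along a split inclusion -/
theorem hasEigenvalue_transfer {M X : Type} [TopologicalSpace M] [TopologicalSpace X]
    (F : C(M, M)) (G : C(X, X)) (i : C(X, M)) (r : C(M, X))
    (hr : (r.comp i).Homotopic (ContinuousMap.id X)) (H : (F.comp i).Homotopic (i.comp G))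
    (c : SH 2 X) (hc : c ≠ 0) (h2 : Hmap G 2 c = (2 : ℝ) • c) :
    Module.End.HasEigenvalue
      (((AlgebraicTopology.singularHomologyFunctor (ModuleCat.{0} ℝ) 2).obj
        (ModuleCat.of ℝ ℝ)).map (TopCat.ofHom F)).hom (2 : ℝ) := by
  apply Module.End.hasEigenvalue_of_hasEigenvector (x := Hmap i 2 c)
  refine ⟨Module.End.mem_eigenspace_iff.2 ?_, ?_⟩
  · show Hmap F 2 (Hmap i 2 c) = (2 : ℝ) • Hmap i 2 c
    rw [← LinearMap.comp_apply, ← Hmap_comp, Hmap_homotopic H, Hmap_comp, LinearMap.comp_apply, h2,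
      map_smul]
  · intro h0
    apply hc
    have h3 : Hmap r 2 (Hmap i 2 c) = c := by
      rw [← LinearMap.comp_apply, ← Hmap_comp, Hmap_homotopic hr, Hmap_id]
      rfl
    rw [← h3, h0, map_zero]

/-- the unit sphere of `ℂ × ℝ` -/
abbrev S2 : Type := {q : ℂ × ℝ // ‖q.1‖ ^ 2 + q.2 ^ 2 = 1}

/-- the squaring map in sphere coordinates -/
def sqf (q : ℂ × ℝ) : ℂ × ℝ :=
  (((1 / (1 + q.2 ^ 2) : ℝ) : ℂ) * q.1 ^ 2, 2 * q.2 / (1 + q.2 ^ 2))

theorem sqf_mem (q : ℂ × ℝ) (hq : ‖q.1‖ ^ 2 + q.2 ^ 2 = 1) :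
    ‖(sqf q).1‖ ^ 2 + (sqf q).2 ^ 2 = 1 := by
  unfold sqf
  have h1 : 0 < 1 + q.2 ^ 2 := by positivity
  simp only [norm_mul, Complex.norm_real, norm_pow, Real.norm_eq_abs]
  rw [abs_of_pos (by positivity)]
  have h2 : ‖q.1‖ ^ 2 = 1 - q.2 ^ 2 := by linarith
  rw [h2]
  field_simp
  ring

theorem continuous_sqf : Continuous sqf := by
  unfold sqf
  have h1 : Continuous fun q : ℂ × ℝ => (1 / (1 + q.2 ^ 2) : ℝ) :=
    continuous_const.div (by fun_prop) (fun q => by positivity)
  have h2 : Continuous fun q : ℂ × ℝ => 2 * q.2 / (1 + q.2 ^ 2) :=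
    Continuous.div (by fun_prop) (by fun_prop) (fun q => by positivity)
  exact ((Complex.continuous_ofReal.comp h1).mul (by fun_prop)).prodMk h2

/-- the squaring map of the sphere -/
def sq : C(S2, S2) where
  toFun s := ⟨sqf s.1, sqf_mem s.1 s.2⟩
  continuous_toFun := (continuous_sqf.comp continuous_subtype_val).subtype_mk _

theorem disc_sq (z : D2) : 0 ≤ 1 - ‖(z : ℂ)‖ ^ 2 := by
  have h := z.2
  rw [mem_closedBall_zero_iff] at h
  have := norm_nonneg (z : ℂ)
  nlinarith

/-- upper hemisphere -/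
def sgp : C(D2, S2) where
  toFun z := ⟨((z : ℂ), Real.sqrt (1 - ‖(z : ℂ)‖ ^ 2)), by
    simp only
    rw [Real.sq_sqrt (disc_sq z)]
    ring⟩
  continuous_toFun := by
    refine Continuous.subtype_mk ?_ _
    fun_prop

/-- lower hemisphere -/
def sgm : C(D2, S2) where
  toFun z := ⟨((z : ℂ), -Real.sqrt (1 - ‖(z : ℂ)‖ ^ 2)), by
    simp only
    rw [neg_sq, Real.sq_sqrt (disc_sq z)]
    ring⟩
  continuous_toFun := by
    refine Continuous.subtype_mk ?_ _
    fun_prop

/-- squaring on the disc -/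
def qq : C(D2, D2) where
  toFun z := ⟨((1 / (2 - ‖(z : ℂ)‖ ^ 2) : ℝ) : ℂ) * (z : ℂ) ^ 2, by
    have h := disc_sq z
    have h2 : 0 < 2 - ‖(z : ℂ)‖ ^ 2 := by linarith
    rw [mem_closedBall_zero_iff, norm_mul, Complex.norm_real, norm_pow, Real.norm_eq_abs,
      abs_of_pos (by positivity), one_div, inv_mul_le_iff₀ h2]
    linarith⟩
  continuous_toFun := by
    refine Continuous.subtype_mk ?_ _
    have h1 : Continuous fun z : D2 => (1 / (2 - ‖(z : ℂ)‖ ^ 2) : ℝ) :=
      continuous_const.div (by fun_prop) (fun z => by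
        have h := disc_sq z
        have h2 : 0 < 2 - ‖(z : ℂ)‖ ^ 2 := by linarith
        exact h2.ne')
    exact (Complex.continuous_ofReal.comp h1).mul (by fun_prop)

theorem qq_circle (z : D2) (hz : ‖(z : ℂ)‖ = 1) : (qq z : ℂ) = (z : ℂ) ^ 2 := by
  show ((1 / (2 - ‖(z : ℂ)‖ ^ 2) : ℝ) : ℂ) * (z : ℂ) ^ 2 = (z : ℂ) ^ 2
  rw [hz]
  norm_num

theorem norm_qq (z : D2) : ‖(qq z : ℂ)‖ = ‖(z : ℂ)‖ ^ 2 / (2 - ‖(z : ℂ)‖ ^ 2) := by
  have h := disc_sq z
  have h2 : 0 < 2 - ‖(z : ℂ)‖ ^ 2 := by linarith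
  show ‖((1 / (2 - ‖(z : ℂ)‖ ^ 2) : ℝ) : ℂ) * (z : ℂ) ^ 2‖ = _
  rw [norm_mul, Complex.norm_real, norm_pow, Real.norm_eq_abs, abs_of_pos (by positivity)]
  ring

theorem height_qq (z : D2) : Real.sqrt (1 - ‖(qq z : ℂ)‖ ^ 2)
    = 2 * Real.sqrt (1 - ‖(z : ℂ)‖ ^ 2) / (1 + (1 - ‖(z : ℂ)‖ ^ 2)) := by
  have h := disc_sq z
  have h2 : 0 < 2 - ‖(z : ℂ)‖ ^ 2 := by linarith
  rw [norm_qq]
  have h3 : 1 - (‖(z : ℂ)‖ ^ 2 / (2 - ‖(z : ℂ)‖ ^ 2)) ^ 2
      = (2 * Real.sqrt (1 - ‖(z : ℂ)‖ ^ 2) / (1 + (1 - ‖(z : ℂ)‖ ^ 2))) ^ 2 := by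
    have h4 : 1 + (1 - ‖(z : ℂ)‖ ^ 2) = 2 - ‖(z : ℂ)‖ ^ 2 := by ring
    rw [h4, div_pow (2 * Real.sqrt (1 - ‖(z : ℂ)‖ ^ 2)), mul_pow, Real.sq_sqrt h]
    field_simp
    ring
  rw [h3, Real.sqrt_sq]
  apply div_nonneg
  · positivity
  · linarith

theorem sq_sgp : sq.comp sgp = sgp.comp qq := by
  refine ContinuousMap.ext fun z => Subtype.ext (Prod.ext ?_ ?_)
  · show ((1 / (1 + Real.sqrt (1 - ‖(z : ℂ)‖ ^ 2) ^ 2) : ℝ) : ℂ) * (z : ℂ) ^ 2
      = ((1 / (2 - ‖(z : ℂ)‖ ^ 2) : ℝ) : ℂ) * (z : ℂ) ^ 2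
    rw [Real.sq_sqrt (disc_sq z)]
    congr 3
    ring
  · show 2 * Real.sqrt (1 - ‖(z : ℂ)‖ ^ 2) / (1 + Real.sqrt (1 - ‖(z : ℂ)‖ ^ 2) ^ 2)
      = Real.sqrt (1 - ‖(qq z : ℂ)‖ ^ 2)
    rw [height_qq, Real.sq_sqrt (disc_sq z)]

theorem sq_sgm : sq.comp sgm = sgm.comp qq := by
  refine ContinuousMap.ext fun z => Subtype.ext (Prod.ext ?_ ?_)
  · show ((1 / (1 + (-Real.sqrt (1 - ‖(z : ℂ)‖ ^ 2)) ^ 2) : ℝ) : ℂ) * (z : ℂ) ^ 2
      = ((1 / (2 - ‖(z : ℂ)‖ ^ 2) : ℝ) : ℂ) * (z : ℂ) ^ 2
    rw [neg_sq, Real.sq_sqrt (disc_sq z)]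
    congr 3
    ring
  · show 2 * (-Real.sqrt (1 - ‖(z : ℂ)‖ ^ 2)) / (1 + (-Real.sqrt (1 - ‖(z : ℂ)‖ ^ 2)) ^ 2)
      = -Real.sqrt (1 - ‖(qq z : ℂ)‖ ^ 2)
    rw [height_qq, neg_sq, Real.sq_sqrt (disc_sq z)]
    ring

theorem glue (z : D2) (hz : ‖(z : ℂ)‖ = 1) : sgp z = sgm z := by
  refine Subtype.ext (Prod.ext rfl ?_)
  show Real.sqrt (1 - ‖(z : ℂ)‖ ^ 2) = -Real.sqrt (1 - ‖(z : ℂ)‖ ^ 2)
  rw [hz]
  simp

/-- coordinate functions -/
def xS : C(S2, ℝ) := ⟨fun s => s.1.1.re, by fun_prop⟩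
/-- coordinate functions -/
def yS : C(S2, ℝ) := ⟨fun s => s.1.1.im, by fun_prop⟩
/-- coordinate functions -/
def hS : C(S2, ℝ) := ⟨fun s => s.1.2, by fun_prop⟩

theorem coordsS : Coords xS yS hS where
  nondeg := by
    intro p h1 h2
    have h3 := p.2
    rw [← Complex.normSq_eq_norm_sq, Complex.normSq_apply] at h3
    have h4 : -1 / 2 ≤ p.1.2 := h1
    have h5 : p.1.2 ≤ 0 := h2
    show 1 / 4 ≤ p.1.1.re ^ 2 + p.1.1.im ^ 2
    nlinarith

theorem ee_re (t : ℝ) : (ee t).re = Real.cos (2 * Real.pi * t) := by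
  unfold ee
  rw [Complex.exp_ofReal_mul_I_re]

theorem ee_im (t : ℝ) : (ee t).im = Real.sin (2 * Real.pi * t) := by
  unfold ee
  rw [Complex.exp_ofReal_mul_I_im]

/-- the class of the sphere -/
def clsS2 : SH 2 S2 := cls (hemi sgp sgm) (bd_hemi sgp sgm glue)

theorem clsS2_ne : clsS2 ≠ 0 :=
  cls_hemi_ne coordsS sgp sgm glue (fun t => ee_re t) (fun t => ee_im t)
    (fun _ => Real.sqrt_nonneg _) (fun _ => neg_nonpos.2 (Real.sqrt_nonneg _))

theorem sq_clsS2 : Hmap sq 2 clsS2 = (2 : ℝ) • clsS2 :=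
  Hmap_hemi sq sgp sgm qq qq glue qq_circle qq_circle sq_sgp sq_sgm

/-- transfer theorem for the squaring map of the sphere -/
theorem hasEigenvalue_of {M : Type} [TopologicalSpace M] (F : C(M, M)) (i : C(S2, M))
    (r : C(M, S2)) (hr : (r.comp i).Homotopic (ContinuousMap.id S2))
    (H : (F.comp i).Homotopic (i.comp sq)) :
    Module.End.HasEigenvalue
      (((AlgebraicTopology.singularHomologyFunctor (ModuleCat.{0} ℝ) 2).obj
        (ModuleCat.of ℝ ℝ)).map (TopCat.ofHom F)).hom (2 : ℝ) :=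
  hasEigenvalue_transfer F sq i r hr H clsS2 clsS2_ne sq_clsS2

end

end Crest.Agent.R123.Hom
end

-- ▼ part R123/XFinalM

set_option autoImplicit false

open scoped Manifold ContDiff

namespace Crest.Agent.R123

open FB

theorem dichotomy (p : Mfd) :
    (∃ n, F^[n] p ∈ Circ) ∨ Filter.Tendsto (fun n => F^[n] p) Filter.atTop (nhds PP) :=
  FB.dichotomy_of (fun p hun => eventually_circ p hun) p

theorem entropy_zero : Dynamics.coverEntropy F Set.univ = 0 :=
  FB.entropy_zero_of contMDiff_F.continuous dichotomy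

/-- `F` as a continuous map -/
noncomputable def FC : C(Mfd, Mfd) := ⟨F, contMDiff_F.continuous⟩

lemma hour_zero : hour 0 = 1 := by simp [hour]

/-- from the subtype of `ℂ × ℝ` to the metric sphere -/
noncomputable def toSph (q : Hom.S2) : S2 := mkS2 q.1.1 q.1.2 q.2

lemma continuous_toSph : Continuous toSph := by
  unfold toSph mkS2
  refine Continuous.subtype_mk ?_ _
  exact (WithLp.prod_continuous_toLp (p := 2) (α := ℂ) (β := ℝ)).comp continuous_subtype_val

lemma toSph_sq (q : Hom.S2) : toSph (Hom.sq q) = sqS (toSph q) := by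
  apply S2_ext
  · show (((1 / (1 + q.1.2 ^ 2) : ℝ) : ℂ) * q.1.1 ^ 2) = q.1.1 ^ 2 / ((1 + q.1.2 ^ 2 : ℝ) : ℂ)
    push_cast
    ring
  · rfl

lemma UU_one (x : S2) : UU 1 1 0 x = sqS x := by
  have hp : (0 : ℝ) < 1 + he x ^ 2 := by positivity
  have hp' : ((1 + he x ^ 2 : ℝ) : ℂ) ≠ 0 := by exact_mod_cast hp.ne'
  have hden : UY 1 1 0 (ze x) (he x) + UZ 1 (he x) = (1 + he x ^ 2) / 2 := by
    simp only [UY, UZ, norm_zero, map_zero, mul_zero, Complex.zero_re]
    ring
  have hnum : UY 1 1 0 (ze x) (he x) - UZ 1 (he x) = he x := by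
    simp only [UY, UZ, norm_zero, map_zero, mul_zero, Complex.zero_re]
    ring
  have hX : UX 1 1 0 (ze x) (he x) = (ze x) ^ 2 / 4 := by
    simp only [UX, zero_mul, add_zero]
    push_cast
    ring
  have e1 : 2 * UX 1 1 0 (ze x) (he x) /
      ((UY 1 1 0 (ze x) (he x) + UZ 1 (he x) : ℝ) : ℂ) = ze (sqS x) := by
    show _ = (ze x) ^ 2 / ((1 + he x ^ 2 : ℝ) : ℂ)
    rw [hden, hX]
    push_cast at hp' ⊢
    field_simp
    ring
  have e2 : (UY 1 1 0 (ze x) (he x) - UZ 1 (he x)) / (UY 1 1 0 (ze x) (he x) + UZ 1 (he x)) =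
      he (sqS x) := by
    show _ = 2 * he x / (1 + he x ^ 2)
    rw [hden, hnum]
    field_simp
  unfold UU toS2
  rw [e1, e2, dif_pos (ze_he (sqS x))]
  exact S2_ext rfl rfl

/-- base point of the circle -/
noncomputable def z0 : S1 := ⟨hour 0, by
  simp only [mem_sphere_zero_iff_norm, hour, Complex.norm_exp_ofReal_mul_I]⟩

lemma F_slice (x : S2) :
    F (x, south, south, z0) = (sqS x, south, south, nextZ (tau (x, south, south, z0)) z0) := by
  have hS : SZ (hour 0) = 0 := SZ_zero (t := 0) 0 (by norm_num) (by norm_num)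
  have hs : sz (hour 0) = 0 := sz_zero (t := 0) 0 (by norm_num) (by norm_num)
  have hg : gam (hour 0) = 0 := gam_reset (t := 0) 0 (by norm_num) (by norm_num)
  have h1 : xi1 (x, south, south, z0) = 0 := by
    show ((SZ (hour 0) : ℝ) : ℂ) * _ + ((gam (hour 0) : ℝ) : ℂ) * _ = 0
    rw [hS, hg]
    simp
  have h2 : xi2 (x, south, south, z0) = 0 := by
    show ((SZ (hour 0) : ℝ) : ℂ) * _ + ((gam (hour 0) : ℝ) : ℂ) * _ = 0
    rw [hS, hg]
    simp
  have h3 : k1 (hour 0) x = 1 := by simp [k1, hs]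
  have h4 : k2 (hour 0) x = 1 := by simp [k2, hs]
  unfold F
  rw [h1, h2, sec_zero]
  show (UU (k1 (hour 0) x) (k2 (hour 0) x) (kickE (ze south, ze south)) x, _) = _
  rw [h3, h4, ze_south, show ((0 : ℂ), (0 : ℂ)) = 0 from rfl, kickE_zero, UU_one]

/-- inclusion of the first sphere -/
noncomputable def incl : C(Hom.S2, Mfd) where
  toFun q := (toSph q, south, south, z0)
  continuous_toFun := continuous_toSph.prodMk (by fun_prop)

/-- projection to the first sphere -/
noncomputable def projS : C(Mfd, Hom.S2) where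
  toFun p := ⟨(ze p.1, he p.1), ze_he p.1⟩
  continuous_toFun := Continuous.subtype_mk
    ((continuous_ze.comp continuous_fst).prodMk (continuous_he.comp continuous_fst)) _

lemma continuous_hour : Continuous hour := by
  unfold hour
  fun_prop

lemma continuous_nextZ : Continuous (fun q : ℝ × S1 => nextZ q.1 q.2) := by
  unfold nextZ
  refine Continuous.subtype_mk ?_ _
  exact (continuous_subtype_val.comp continuous_snd).mul (continuous_hour.comp continuous_fst)

lemma nextZ_zero (z : S1) : nextZ 0 z = z := by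
  apply Subtype.ext
  show (z : ℂ) * hour 0 = z
  rw [hour_zero, mul_one]

lemma FC_homotopic : (FC.comp incl).Homotopic (incl.comp Hom.sq) := by
  refine ⟨ContinuousMap.Homotopy.symm ?_⟩
  refine
    { toFun := fun p => (toSph (Hom.sq p.2), south, south,
        nextZ ((p.1 : ℝ) * tau (incl p.2)) z0)
      continuous_toFun := ?_
      map_zero_left := fun q => ?_
      map_one_left := fun q => ?_ }
  · refine (continuous_toSph.comp (Hom.sq.continuous.comp continuous_snd)).prodMk
      (continuous_const.prodMk (continuous_const.prodMk ?_))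
    refine continuous_nextZ.comp (Continuous.prodMk ?_ continuous_const)
    exact (continuous_subtype_val.comp continuous_fst).mul
      (continuous_tau.comp (incl.continuous.comp continuous_snd))
  · show (toSph (Hom.sq q), south, south, nextZ (((0 : unitInterval) : ℝ) * tau (incl q)) z0) =
      (toSph (Hom.sq q), south, south, z0)
    simp [nextZ_zero]
  · show (toSph (Hom.sq q), south, south, nextZ (((1 : unitInterval) : ℝ) * tau (incl q)) z0) =
      F (toSph q, south, south, z0)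
    rw [F_slice, toSph_sq]
    have h1 : ((1 : unitInterval) : ℝ) = 1 := rfl
    rw [h1, one_mul]
    rfl

theorem eigen_FC : Module.End.HasEigenvalue
    (((AlgebraicTopology.singularHomologyFunctor (ModuleCat.{0} ℝ) 2).obj
        (ModuleCat.of ℝ ℝ)).map (TopCat.ofHom FC)).hom (2 : ℝ) := by
  refine Hom.hasEigenvalue_of FC incl projS ?_ FC_homotopic
  have h : projS.comp incl = ContinuousMap.id Hom.S2 := by
    ext q <;> rfl
  rw [h]

theorem main :
    ∃ (n : ℕ) (M : Type) (_ : MetricSpace M) (_ : CompactSpace M) (_ : Nonempty M)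
      (_ : ChartedSpace (EuclideanSpace ℝ (Fin n)) M)
      (_ : IsManifold (modelWithCornersSelf ℝ (EuclideanSpace ℝ (Fin n))) ∞ M)
      (f : C(M, M)),
      ContMDiff (modelWithCornersSelf ℝ (EuclideanSpace ℝ (Fin n)))
          (modelWithCornersSelf ℝ (EuclideanSpace ℝ (Fin n))) 1 ⇑f ∧
        Dynamics.coverEntropy ⇑f Set.univ = 0 ∧
        Module.End.HasEigenvalue
          (((AlgebraicTopology.singularHomologyFunctor (ModuleCat.{0} ℝ) 2).obj
              (ModuleCat.of ℝ ℝ)).map (TopCat.ofHom f)).hom (2 : ℝ) := by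
  obtain ⟨hc, hm, H⟩ := exists_charts
  exact ⟨7, Mfd, inferInstance, inferInstance, ⟨PP⟩, hc, hm, FC, H F contMDiff_F,
    entropy_zero, eigen_FC⟩

end Crest.Agent.R123
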